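import Mathlib.Analysis.Distribution.Sobolev
import Vale.Agent.P363.R.Sob.Density

/-! Weak derivatives, derivatives of tempered distributions, the Sobolev space `H¹`. -/

namespace Vale.Agent.N370X.Sob

open MeasureTheory Filter Topology FourierTransform TemperedDistribution P363.R.Sob
open scoped SchwartzMap InnerProductSpace Real LineDeriv ContDiff ENNReal

variable {E F : Type} [NormedAddCommGroup E] [InnerProductSpace ℝ E] [FiniteDimensional ℝ E]
  [MeasurableSpace E] [BorelSpace E] [NormedAddCommGroup F] [InnerProductSpace ℂ F]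
  [CompleteSpace F]

theorem exists_sw {φ : E → ℝ} (h : Test φ) :
    ∃ u : 𝓢(E, ℂ), (∀ x, u x = φ x) ∧ ∀ m x, (∂_{m} u : 𝓢(E, ℂ)) x = (fderiv ℝ φ x m : ℝ) := by
  have h1 : HasCompactSupport (Complex.ofRealCLM ∘ φ) := h.2.comp_left rfl
  have h2 : ContDiff ℝ ∞ (Complex.ofRealCLM ∘ φ) := Complex.ofRealCLM.contDiff.comp h.1
  refine ⟨h1.toSchwartzMap h2, fun _ => rfl, fun m x => ?_⟩
  rw [SchwartzMap.lineDerivOp_apply_eq_fderiv]
  change fderiv ℝ (Complex.ofRealCLM ∘ φ) x m = _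
  rw [(Complex.ofRealCLM.hasFDerivAt.comp x (h.differentiable x).hasFDerivAt).fderiv]
  rfl

theorem tendsto_lp {u : ℕ → 𝓢(E, F)} {f : Lp F 2 (volume : Measure E)}
    (h : Tendsto (fun n => eLpNorm ((u n : E → F) - (f : E → F)) 2 volume) atTop (𝓝 0)) :
    Tendsto (fun n => ((u n : 𝓢(E, F)) : 𝓢'(E, F))) atTop (𝓝 (f : 𝓢'(E, F))) := by
  have h1 : Tendsto (fun n => (u n).toLp 2 volume) atTop (𝓝 f) := by
    rw [Lp.tendsto_Lp_iff_tendsto_eLpNorm']
    refine h.congr fun n => eLpNorm_congr_ae ?_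
    filter_upwards [(u n).coeFn_toLp 2 volume] with x hx
    rw [Pi.sub_apply, Pi.sub_apply, hx]
  have h2 := ((Lp.toTemperedDistributionCLM F volume 2).continuous.tendsto f).comp h1
  refine h2.congr fun n => ?_
  exact Lp.toTemperedDistribution_toLp_eq (u n)

theorem wd_iff (f g : Lp F 2 (volume : Measure E)) (m : E) :
    ∂_{m} (f : 𝓢'(E, F)) = (g : 𝓢'(E, F)) ↔ IsWD volume m f g := by
  constructor
  · intro h φ hφ
    obtain ⟨u, h1, h2⟩ := exists_sw hφ
    have h3 := DFunLike.congr_fun h u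
    rw [lineDerivOp_apply_apply, map_neg, Lp.toTemperedDistribution_apply,
      Lp.toTemperedDistribution_apply] at h3
    simp only [h1, h2, Complex.coe_smul] at h3
    rw [← h3, neg_neg]
  · intro h
    obtain ⟨fn, h1, h2, h3, h4⟩ := exists_test_approx (b := fun _ : Unit => m)
      (g := fun _ => g) (Lp.memLp f) (fun _ => Lp.memLp g) fun _ => h
    let u : ℕ → 𝓢(E, F) := fun n => (h2 n).toSchwartzMap (h1 n)
    have t1 := tendsto_lp (u := u) h3
    have t2 := tendsto_lp (u := fun n => ∂_{m} (u n)) (h4 ())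
    have t3 := ((LineDeriv.lineDerivOpCLM ℂ 𝓢'(E, F) m).continuous.tendsto _).comp t1
    refine tendsto_nhds_unique (t3.congr fun n => ?_) t2
    exact lineDerivOp_toTemperedDistributionCLM_eq (u n) m

theorem mul_iff {h : E → ℂ} (hh : h.HasTemperateGrowth) (f g : Lp F 2 (volume : Measure E)) :
    smulLeftCLM F h (f : 𝓢'(E, F)) = (g : 𝓢'(E, F)) ↔ g =ᵐ[volume] fun x => h x • f x := by
  constructor
  · intro e
    have l1 : LocallyIntegrable f volume := (Lp.memLp f).locallyIntegrable (by norm_num)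
    have l2 : LocallyIntegrable (fun x => h x • f x) volume :=
      locallyIntegrableOn_univ.1 ((locallyIntegrableOn_univ.2 l1).continuousOn_smul
        isClosed_univ.isLocallyClosed hh.1.continuous.continuousOn)
    refine ae_eq_of_integral_contDiff_smul_eq ((Lp.memLp g).locallyIntegrable (by norm_num)) l2
      fun φ h1 h2 => ?_
    obtain ⟨u, h3, -⟩ := exists_sw (φ := φ) ⟨h1, h2⟩
    have h4 := DFunLike.congr_fun e u
    rw [smulLeftCLM_apply_apply, Lp.toTemperedDistribution_apply,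
      Lp.toTemperedDistribution_apply] at h4
    simp only [SchwartzMap.smulLeftCLM_apply_apply hh, h3, Complex.coe_smul] at h4
    rw [← h4]
    refine integral_congr_ae (Eventually.of_forall fun x => ?_)
    simp only [← Complex.coe_smul, smul_smul, smul_eq_mul, mul_comm]
  · intro e
    ext u
    rw [smulLeftCLM_apply_apply, Lp.toTemperedDistribution_apply, Lp.toTemperedDistribution_apply]
    refine integral_congr_ae ?_
    filter_upwards [e] with x hx
    rw [hx, SchwartzMap.smulLeftCLM_apply_apply hh, smul_smul, smul_eq_mul, mul_comm]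

theorem fourier_of {f g : Lp F 2 (volume : Measure E)} {m : E}
    (h : ∂_{m} (f : 𝓢'(E, F)) = (g : 𝓢'(E, F))) :
    (𝓕 g : Lp F 2 (volume : Measure E)) =ᵐ[volume]
      fun ξ => (2 * π * Complex.I * (⟪ξ, m⟫_ℝ : ℝ)) • (𝓕 f : Lp F 2 (volume : Measure E)) ξ := by
  have t : (fun x : E => ((⟪x, m⟫_ℝ : ℝ) : ℂ)).HasTemperateGrowth := by fun_prop
  have h1 := fourier_lineDerivOp_eq (f : 𝓢'(E, F)) m
  rw [h, Lp.fourier_toTemperedDistribution_eq, Lp.fourier_toTemperedDistribution_eq] at h1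
  refine (mul_iff (h := (2 * π * Complex.I : ℂ) • fun x : E => ((⟪x, m⟫_ℝ : ℝ) : ℂ))
    (by fun_prop) _ _).1 ?_
  rw [smulLeftCLM_smul t, h1]
  rfl

variable {ι : Type} [Fintype ι]

theorem sob_iff (b : OrthonormalBasis ι ℝ E) (f : Lp F 2 (volume : Measure E)) :
    MemSobolev 1 2 (f : 𝓢'(E, F)) ↔
      ∀ p, ∃ g : Lp F 2 (volume : Measure E), ∂_{b p} (f : 𝓢'(E, F)) = (g : 𝓢'(E, F)) := by
  constructor
  · intro h p
    have := h.lineDerivOp (m := b p)
    rw [sub_self] at this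
    exact memSobolev_zero_iff.1 this
  · intro h
    choose g hg using h
    have t : (fun x : E => (((1 + ‖x‖ ^ 2) ^ ((1 : ℝ) / 2) : ℝ) : ℂ)).HasTemperateGrowth := by
      fun_prop
    have hm : MemLp (fun ξ : E => (((1 + ‖ξ‖ ^ 2) ^ ((1 : ℝ) / 2) : ℝ) : ℂ) •
        (𝓕 f : Lp F 2 (volume : Measure E)) ξ) 2 volume := by
      have h1 : MemLp (fun ξ : E => ‖(𝓕 f : Lp F 2 (volume : Measure E)) ξ‖ +
          ∑ p, ‖(𝓕 (g p) : Lp F 2 (volume : Measure E)) ξ‖) 2 volume :=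
        (Lp.memLp _).norm.add (memLp_finsetSum _ fun p _ => (Lp.memLp _).norm)
      refine h1.mono' (t.1.continuous.aestronglyMeasurable.smul (Lp.aestronglyMeasurable _)) ?_
      filter_upwards [ae_all_iff.2 fun p => fourier_of (hg p)] with ξ hξ
      simp only [hξ, norm_smul, Complex.norm_real]
      rw [← Finset.sum_mul, ← one_add_mul]
      refine mul_le_mul_of_nonneg_right ?_ (norm_nonneg _)
      have h2 : ‖ξ‖ ≤ ∑ p, ‖(2 * π * Complex.I * (⟪ξ, b p⟫_ℝ : ℝ) : ℂ)‖ := by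
        conv_lhs => rw [← b.sum_repr' ξ]
        refine (norm_sum_le _ _).trans (Finset.sum_le_sum fun p _ => ?_)
        simp only [norm_smul, norm_mul, b.norm_eq_one, Complex.norm_real, Complex.norm_I,
          Complex.norm_ofNat, real_inner_comm, Real.norm_of_nonneg Real.pi_pos.le, mul_one]
        nlinarith [Real.pi_gt_three, norm_nonneg ⟪ξ, b p⟫_ℝ]
      rw [Real.norm_of_nonneg (by positivity), ← Real.sqrt_eq_rpow]
      refine (Real.sqrt_le_iff.2 ⟨by positivity, ?_⟩)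
      nlinarith [norm_nonneg ξ]
    rw [memSobolev_iff_exists_smulLeftCLM_fourier, Lp.fourier_toTemperedDistribution_eq]
    exact ⟨hm.toLp, (mul_iff t _ _).2 hm.coeFn_toLp⟩

theorem kin_eq (b : OrthonormalBasis ι ℝ E) {f f' : Lp F 2 (volume : Measure E)}
    {g g' : ι → Lp F 2 (volume : Measure E)}
    (h : ∀ p, ∂_{b p} (f : 𝓢'(E, F)) = (g p : 𝓢'(E, F)))
    (h' : ∀ p, ∂_{b p} (f' : 𝓢'(E, F)) = (g' p : 𝓢'(E, F))) :
    Integrable (fun ξ : E => ((1 / 2 * (2 * π * ‖ξ‖) ^ 2 : ℝ) : ℂ) * ⟪𝓕 f ξ, 𝓕 f' ξ⟫_ℂ) ∧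
      ∫ ξ : E, ((1 / 2 * (2 * π * ‖ξ‖) ^ 2 : ℝ) : ℂ) * ⟪𝓕 f ξ, 𝓕 f' ξ⟫_ℂ =
        1 / 2 * ∑ p, ⟪g p, g' p⟫_ℂ := by
  have e : (fun ξ : E => ((1 / 2 * (2 * π * ‖ξ‖) ^ 2 : ℝ) : ℂ) * ⟪𝓕 f ξ, 𝓕 f' ξ⟫_ℂ) =ᵐ[volume]
      fun ξ => 1 / 2 * ∑ p, ⟪𝓕 (g p) ξ, 𝓕 (g' p) ξ⟫_ℂ := by
    filter_upwards [ae_all_iff.2 fun p => fourier_of (h p),
      ae_all_iff.2 fun p => fourier_of (h' p)] with ξ h1 h2
    have h3 : ‖ξ‖ ^ 2 = ∑ p, ⟪ξ, b p⟫_ℝ ^ 2 := by
      rw [← b.sum_sq_inner_left]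
    simp only [h1, h2, inner_smul_left, inner_smul_right, map_mul, Complex.conj_ofReal,
      Complex.conj_I, map_ofNat, mul_pow, h3]
    push_cast
    rw [Finset.mul_sum, Finset.mul_sum, Finset.mul_sum, Finset.sum_mul]
    refine Finset.sum_congr rfl fun p _ => ?_
    linear_combination (2 * π ^ 2 * (⟪ξ, b p⟫_ℝ : ℂ) ^ 2 * ⟪𝓕 f ξ, 𝓕 f' ξ⟫_ℂ) * Complex.I_mul_I
  have i : ∀ p, Integrable fun ξ => ⟪𝓕 (g p) ξ, 𝓕 (g' p) ξ⟫_ℂ := fun p =>
    L2.integrable_inner _ _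
  refine ⟨((integrable_finsetSum _ fun p _ => i p).const_mul _).congr e.symm, ?_⟩
  rw [integral_congr_ae e, integral_const_mul, integral_finsetSum _ fun p _ => i p]
  simp only [← L2.inner_def, Lp.inner_fourier_eq]

end Vale.Agent.N370X.Sob
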