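import Vale.Agent.N370X.Defs
import Vale.Agent.N370X.Sob
import Vale.Agent.P370S.Main

/-! The Hilbert space of the statement and the space of spin components. -/

namespace Vale.Agent.N370X

open MeasureTheory Filter Topology FourierTransform P363.R.Sob P363.H382
open P363.Stmt (Conf R3 IsWeakDeriv)
open P370S (Full Fer InH1 formGraph ham)
open scoped SchwartzMap InnerProductSpace Real LineDeriv ComplexConjugate

noncomputable section

variable {N : ℕ}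

/-- the Hilbert space -/
abbrev L2 (N : ℕ) : Type := LL (Pos N) (Spin N)

/-- antisymmetric vectors -/
def An (ψ : L2 N) : Prop := Anti N (val ψ)

/-- the form domain -/
def Dm (ψ : L2 N) : Prop := Dom (Anti N) ψ

/-- the form -/
def fm (R : Nuclei) (φ ψ : L2 N) : ℂ := form (pot R N) φ ψ

/-- the operator -/
def Hm (R : Nuclei) (ψ η : L2 N) : Prop := Ham An Dm (fm R) ψ η

/-- the spectrum -/
def sp (R : Nuclei) (N : ℕ) : Set ℂ := spec (K := L2 N) An Dm (fm R)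

/-- `(ℝ³)^N = ℝ^{3N}` -/
def cA (N : ℕ) : Conf N ≃L[ℝ] Pos N := LinearEquiv.toContinuousLinearEquiv
  { toFun := fun x => WithLp.toLp 2 fun p => x p.1 p.2
    invFun := fun y i => WithLp.toLp 2 fun k => y (i, k)
    map_add' := fun _ _ => rfl
    map_smul' := fun _ _ => rfl
    left_inv := fun _ => rfl
    right_inv := fun _ => rfl }

theorem cA_mp (N : ℕ) : MeasurePreserving (cA N) volume volume := by
  have h1 : MeasurePreserving (fun (x : Conf N) i => (x i).ofLp) volume volume :=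
    volume_preserving_pi fun _ => PiLp.volume_preserving_ofLp (Fin 3)
  have h2 : MeasurePreserving (fun (x : Fin N → Fin 3 → ℝ) (p : Fin N × Fin 3) => x p.1 p.2)
      volume volume := by
    have hm : Measurable fun (x : Fin N → Fin 3 → ℝ) (p : Fin N × Fin 3) => x p.1 p.2 := by
      fun_prop
    refine ⟨hm, (Measure.pi_eq fun s hs => ?_).symm⟩
    rw [Measure.map_apply hm (MeasurableSet.univ_pi hs)]
    have : (fun (x : Fin N → Fin 3 → ℝ) (p : Fin N × Fin 3) => x p.1 p.2) ⁻¹' Set.univ.pi s =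
        Set.univ.pi fun i => Set.univ.pi fun k => s (i, k) := by
      ext x; simp
    rw [this, volume_pi_pi, Fintype.prod_prod_type]
    simp only [volume_pi_pi]
  exact (PiLp.volume_preserving_toLp (Fin N × Fin 3)).comp (h2.comp h1)

theorem cA_mp' (N : ℕ) : MeasurePreserving (cA N).symm volume volume :=
  MeasurePreserving.symm (cA N).toHomeomorph.toMeasurableEquiv (cA_mp N)

theorem cA_dir (i : Fin N) (k : Fin 3) :
    cA N (dir i k) = EuclideanSpace.basisFun (Fin N × Fin 3) ℝ (i, k) := by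
  ext ⟨j, l⟩
  change (dir i k j) l = _
  by_cases h : j = i
  · subst h
    simp [dir, e3]
  · simp [dir, h]

/-- the components -/
def cU0 (N : ℕ) : L2 N →ₗ[ℂ] Full N :=
  (WithLp.linearEquiv 2 ℂ _).symm.toLinearMap ∘ₗ LinearMap.pi fun s =>
    Lp.compMeasurePreservingₗ ℂ (cA N) (cA_mp N) ∘ₗ
      (EuclideanSpace.proj s : Spin N →L[ℂ] ℂ).compLpₗ 2 volume

theorem cU0_ae (ψ : L2 N) (s : Fin N → Fin 2) :
    cU0 N ψ s =ᵐ[volume] fun x => ψ (cA N x) s :=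
  (Lp.coeFn_compMeasurePreserving _ (cA_mp N)).trans ((cA_mp N).quasiMeasurePreserving.ae_eq_comp
    ((EuclideanSpace.proj s : Spin N →L[ℂ] ℂ).coeFn_compLp' ψ))

theorem ae_inner (φ ψ : L2 N) : ∀ᵐ x : Conf N,
    ⟪φ (cA N x), ψ (cA N x)⟫_ℂ = ∑ s, conj (cU0 N φ s x) * cU0 N ψ s x := by
  filter_upwards [ae_all_iff.2 (cU0_ae φ), ae_all_iff.2 (cU0_ae ψ)] with x h1 h2
  simp only [h1, h2, PiLp.inner_apply, RCLike.inner_apply, mul_comm]

theorem cU0_inner (φ ψ : L2 N) : ⟪cU0 N φ, cU0 N ψ⟫_ℂ = ⟪φ, ψ⟫_ℂ := by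
  rw [PiLp.inner_apply, MeasureTheory.L2.inner_def φ, ← integral_comp_equiv (cA N) (cA_mp N),
    integral_congr_ae (ae_inner φ ψ), integral_finsetSum]
  · simp only [P370S.inner_LC]
  · intro s _
    exact (MeasureTheory.L2.integrable_inner (𝕜 := ℂ) (cU0 N φ s) (cU0 N ψ s)).congr
      (ae_of_all _ fun x => (RCLike.inner_apply _ _).trans (mul_comm _ _))

theorem cU0_surj : Function.Surjective (cU0 N) := by
  intro Φ
  have h : MemLp (fun y : Pos N => (WithLp.toLp 2 fun s => Φ s ((cA N).symm y) : Spin N)) 2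
      volume := MemLp.of_eval_piLp fun s => (Lp.memLp (Φ s)).comp_measurePreserving (cA_mp' N)
  refine ⟨h.toLp, PiLp.ext fun s => Lp.ext ?_⟩
  filter_upwards [cU0_ae h.toLp s, (cA_mp N).quasiMeasurePreserving.ae_eq_comp h.coeFn_toLp]
    with x h1 h2
  rw [h1]
  simp only [Function.comp_apply] at h2
  rw [h2, ContinuousLinearEquiv.symm_apply_apply]

/-- the components, as an isometry -/
def cU (N : ℕ) : L2 N ≃ₗᵢ[ℂ] Full N :=
  LinearIsometryEquiv.ofSurjective ((cU0 N).isometryOfInner cU0_inner) cU0_surj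

theorem cU_eq (ψ : L2 N) : cU N ψ = cU0 N ψ := rfl

theorem anti_iff (ψ : L2 N) : An ψ ↔ cU N ψ ∈ Fer N := by
  refine forall_congr' fun σ => ⟨fun h s => ?_, fun h => ?_⟩
  · filter_upwards [(cA_mp N).quasiMeasurePreserving.ae h, cU0_ae ψ s,
      P370S.ae_perm σ (cU0_ae ψ (s ∘ σ))] with x h1 h2 h3
    rw [cU_eq, h2, h3]
    exact h1 s
  · have h1 : ∀ᵐ x : Conf N, ∀ s : Fin N → Fin 2,
        ψ (cA N (x ∘ σ)) (s ∘ σ) = (Equiv.Perm.sign σ : ℤ) * ψ (cA N x) s := by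
      refine ae_all_iff.2 fun s => ?_
      filter_upwards [h s, cU0_ae ψ s, P370S.ae_perm σ (cU0_ae ψ (s ∘ σ))] with x h1 h2 h3
      rw [← h2, ← h3]
      exact h1
    exact (cA_mp' N).quasiMeasurePreserving.ae h1

theorem wd_comp (ψ g : L2 N) (i : Fin N) (k : Fin 3) :
    ∂_{EuclideanSpace.basisFun (Fin N × Fin 3) ℝ (i, k)} (ψ : 𝓢'(Pos N, Spin N)) =
      (g : 𝓢'(Pos N, Spin N)) ↔ ∀ s, IsWeakDeriv i k (cU N ψ s) (cU N g s) := by
  have li : ∀ (f : L2 N) (φ : Pos N → ℝ), Test φ → Integrable fun x => φ x • f x :=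
    fun f φ h => h.integrable_smul ((Lp.memLp f).locallyIntegrable (by norm_num))
  have e : ∀ s, IsWeakDeriv i k (cU N ψ s) (cU N g s) ↔
      IsWD volume (EuclideanSpace.basisFun (Fin N × Fin 3) ℝ (i, k)) (fun y => ψ y s)
        fun y => g y s := fun s => by
    rw [isWeakDeriv_iff, ← cA_dir, ← isWD_comp_equiv_iff (cA N) (cA_mp N)]
    exact ⟨fun h => h.congr (cU0_ae ψ s) (cU0_ae g s),
      fun h => h.congr (cU0_ae ψ s).symm (cU0_ae g s).symm⟩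
  rw [Sob.wd_iff]
  simp only [e]
  refine ⟨fun h s => h.clm_comp ((EuclideanSpace.proj s : Spin N →L[ℂ] ℂ).restrictScalars ℝ)
    (li ψ) (li g), fun h φ hφ => PiLp.ext fun s => ?_⟩
  have e1 := ((EuclideanSpace.proj s : Spin N →L[ℂ] ℂ).restrictScalars ℝ).integral_comp_comm
    (li ψ _ (hφ.fderiv (EuclideanSpace.basisFun (Fin N × Fin 3) ℝ (i, k))))
  have e2 := ((EuclideanSpace.proj s : Spin N →L[ℂ] ℂ).restrictScalars ℝ).integral_comp_comm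
    (li g _ hφ)
  simp only [map_smul] at e1 e2
  exact e1.symm.trans ((h s φ hφ).trans (congrArg Neg.neg e2))

/-- the fermionic space in the Hilbert space of the statement -/
def cW (N : ℕ) : Fer N →ₗᵢ[ℂ] L2 N := (cU N).symm.toLinearIsometry.comp (Fer N).subtypeₗᵢ

theorem cU_cW (Φ : Fer N) : cU N (cW N Φ) = Φ.1 := (cU N).apply_symm_apply _

theorem anti_cW (Φ : Fer N) : An (cW N Φ) := (anti_iff _).2 (by rw [cU_cW]; exact Φ.2)

theorem An.ex {ψ : L2 N} (h : An ψ) : ∃ Φ, cW N Φ = ψ :=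
  ⟨⟨_, (anti_iff ψ).1 h⟩, (cU N).symm_apply_apply ψ⟩

theorem exists_grad {Φ : Fer N} (h : InH1 Φ) : ∃ g : Fin N × Fin 3 → L2 N,
    (∀ p, ∂_{EuclideanSpace.basisFun (Fin N × Fin 3) ℝ p} (cW N Φ : 𝓢'(Pos N, Spin N)) =
      (g p : 𝓢'(Pos N, Spin N))) ∧
    ∀ s i k, cU N (g (i, k)) s =ᵐ[volume] P370S.grad Φ s i k := by
  have h1 := fun s i k => Classical.epsilon_spec (h s i k)
  have h2 : ∀ s (p : Fin N × Fin 3), MemLp (P370S.grad Φ s p.1 p.2) 2 volume :=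
    fun s p => (h1 s p.1 p.2).1
  have h3 : ∀ s (p : Fin N × Fin 3), cU N ((cU N).symm (WithLp.toLp 2 fun s => (h2 s p).toLp)) s
      =ᵐ[volume] P370S.grad Φ s p.1 p.2 := fun s p => by
    rw [LinearIsometryEquiv.apply_symm_apply]
    exact (h2 s p).coeFn_toLp
  refine ⟨fun p => (cU N).symm (WithLp.toLp 2 fun s => (h2 s p).toLp), fun p => ?_,
    fun s i k => h3 s (i, k)⟩
  refine (wd_comp _ _ p.1 p.2).2 fun s => ?_
  rw [cU_cW]
  exact isWeakDeriv_iff.2 ((isWeakDeriv_iff.1 (h1 s p.1 p.2).2).congr EventuallyEq.rfl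
    (h3 s p).symm)

theorem dom_iff (Φ : Fer N) : Dm (cW N Φ) ↔ InH1 Φ := by
  rw [Dm, Dom, Sob.sob_iff (EuclideanSpace.basisFun (Fin N × Fin 3) ℝ)]
  refine ⟨fun h s i k => ?_, fun h => ⟨anti_cW Φ, fun p => ?_⟩⟩
  · obtain ⟨g, hg⟩ := h.2 (i, k)
    have := (wd_comp _ _ i k).1 hg s
    rw [cU_cW] at this
    exact ⟨_, Lp.memLp _, this⟩
  · obtain ⟨g, hg, -⟩ := exists_grad h
    exact ⟨_, hg p⟩

/-- the instance with the given nuclei -/
def old (R : Nuclei) (N : ℕ) (a b : ℚ) : P370Z.Instance :=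
  ⟨R.map fun n => ((n.1 0, n.1 1, n.1 2), n.2), N, a, b⟩

/-- its potential -/
def wP (R : Nuclei) (N : ℕ) : Conf N → ℝ := (old R N 0 0).potential

attribute [local instance] P370S.complete

theorem op' (R : Nuclei) (N : ℕ) : P370S.IsClosedForm (wP R N) ∧
    ((ham (wP R N)).graph : Set (Fer N × Fer N)) = formGraph (wP R N) ∧
    IsSelfAdjoint (ham (wP R N)) ∧ (∀ z ∈ P370S.spec (ham (wP R N)), z.im = 0) ∧
    IsLeast {t : ℝ | (t : ℂ) ∈ P370S.spec (ham (wP R N))} (P370S.E0 (old R N 0 0)) ∧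
    IsGLB {t | ∃ ψ, InH1 ψ ∧ ‖ψ‖ = 1 ∧ (P370S.form (wP R N) ψ ψ).re = t}
      (P370S.E0 (old R N 0 0)) :=
  (P370S.op (old R N 0 0)).elim fun _ h => h

theorem pot_eq (R : Nuclei) (x : Conf N) : pot R N (cA N x) = wP R N x := by
  have e : ∀ v : R3, len (fun k => v k) = ‖v‖ := fun v => by
    simp [len, EuclideanSpace.norm_eq]
  simp only [pot, wP, old, P370Z.Instance.potential, List.map_map, Function.comp_def, ← e]
  congr 3

theorem form_eq (R : Nuclei) {Φ Ψ : Fer N} (h : InH1 Φ) (h' : InH1 Ψ) :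
    Integrable (kin (cW N Φ) (cW N Ψ)) ∧
    Integrable (fun x => pot R N x * ⟪cW N Φ x, cW N Ψ x⟫_ℂ) ∧
    fm R (cW N Φ) (cW N Ψ) = P370S.form (wP R N) Φ Ψ := by
  obtain ⟨g, h1, h2⟩ := exists_grad h
  obtain ⟨g', h1', h2'⟩ := exists_grad h'
  obtain ⟨k1, k2⟩ := Sob.kin_eq _ h1 h1'
  obtain ⟨cf, -⟩ := op' R N
  have e : (fun x => pot R N (cA N x) * ⟪cW N Φ (cA N x), cW N Ψ (cA N x)⟫_ℂ) =ᵐ[volume]
      fun x => ∑ s, wP R N x * (conj (Φ.1 s x) * Ψ.1 s x) := by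
    filter_upwards [ae_inner (cW N Φ) (cW N Ψ)] with x hx
    rw [hx, pot_eq R, ← cU_eq, ← cU_eq, cU_cW, cU_cW, Finset.mul_sum]
  have i := fun s => cf.int Φ Ψ h h' s
  refine ⟨k1, ?_, ?_⟩
  · exact ((cA_mp N).integrable_comp_emb (cA N).toHomeomorph.measurableEmbedding).1
      ((integrable_finsetSum _ fun s _ => i s).congr e.symm)
  · unfold P370S.form
    change (∫ ξ, kin (cW N Φ) (cW N Ψ) ξ) + ∫ x, pot R N x * ⟪cW N Φ x, cW N Ψ x⟫_ℂ = _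
    rw [← integral_comp_equiv (cA N) (cA_mp N)
      fun x => pot R N x * ⟪cW N Φ x, cW N Ψ x⟫_ℂ, integral_congr_ae e,
      integral_finsetSum _ fun s _ => i s]
    congr 1
    refine k2.trans ?_
    congr 1
    rw [Finset.sum_comm, Fintype.sum_prod_type]
    refine Finset.sum_congr rfl fun i _ => ?_
    rw [Finset.sum_comm]
    refine Finset.sum_congr rfl fun k _ => ?_
    rw [← (cU N).inner_map_map, PiLp.inner_apply]
    refine Finset.sum_congr rfl fun s _ => ?_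
    rw [P370S.inner_LC]
    refine integral_congr_ae ?_
    filter_upwards [h2 s i k, h2' s i k] with x a1 a2
    rw [a1, a2]

theorem ham_iff (R : Nuclei) (Ψ Θ : Fer N) :
    Hm R (cW N Ψ) (cW N Θ) ↔ (Ψ, Θ) ∈ formGraph (wP R N) := by
  refine ⟨fun h => ⟨(dom_iff Ψ).1 h.1, fun Φ hΦ => ?_⟩,
    fun h => ⟨(dom_iff Ψ).2 h.1, anti_cW Θ, fun φ hφ => ?_⟩⟩
  · rw [← (form_eq R hΦ ((dom_iff Ψ).1 h.1)).2.2, h.2.2 _ ((dom_iff Φ).2 hΦ),
      (cW N).inner_map_map]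
  · obtain ⟨Φ, rfl⟩ := An.ex hφ.1
    rw [(form_eq R ((dom_iff Φ).1 hφ) h.1).2.2, h.2 _ ((dom_iff Φ).1 hφ), (cW N).inner_map_map]

theorem Hm.ex {R : Nuclei} {ψ ζ : L2 N} (h : Hm R ψ ζ) :
    ∃ Ψ : (ham (wP R N)).domain,
      cW N Ψ = ψ ∧ cW N (ham (wP R N) Ψ) = ζ := by
  obtain ⟨Ψ, rfl⟩ := An.ex h.1.1
  obtain ⟨Θ, rfl⟩ := h.2.1.ex
  obtain ⟨-, hg, -⟩ := op' R N
  have h1 := (ham_iff R Ψ Θ).1 h
  rw [← hg] at h1
  obtain ⟨u, h2, h3⟩ := (LinearPMap.mem_graph_iff _).1 h1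
  exact ⟨u, congrArg _ h2, congrArg _ h3⟩

theorem ham_dom (R : Nuclei) (Ψ : (ham (wP R N)).domain) :
    Hm R (cW N Ψ) (cW N (ham (wP R N) Ψ)) := by
  obtain ⟨-, hg, -⟩ := op' R N
  refine (ham_iff R _ _).2 ?_
  rw [← hg]
  exact LinearPMap.mem_graph _ Ψ

theorem spec_abs {H : Type} [NormedAddCommGroup H] [NormedSpace ℂ H] (A : H →ₗ.[ℂ] H) (z : ℂ) :
    z ∈ P370S.spec A ↔ ¬ ∃ C : ℝ, (∀ η : H, ∃ ψ : A.domain, A ψ - z • (ψ : H) = η) ∧
      ∀ ψ : A.domain, ‖(ψ : H)‖ ≤ C * ‖A ψ - z • (ψ : H)‖ := by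
  refine not_congr ⟨fun ⟨R, h1, h2⟩ => ⟨‖R‖, h2, fun ψ => ?_⟩, fun ⟨C, h1, h2⟩ => ?_⟩
  · conv_lhs => rw [← h1 ψ]
    exact R.le_opNorm _
  · let T : A.domain →ₗ[ℂ] H := A.toFun - z • A.domain.subtype
    have hi : Function.Injective T := (injective_iff_map_eq_zero T).2 fun ψ h => by
      have h3 := h2 ψ
      rw [show A ψ - z • (ψ : H) = 0 from h, norm_zero, mul_zero] at h3
      exact Subtype.ext (norm_le_zero_iff.1 h3)
    let e := LinearEquiv.ofBijective T ⟨hi, h1⟩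
    refine ⟨(A.domain.subtype ∘ₗ e.symm.toLinearMap).mkContinuous C fun η => ?_, fun ψ => ?_, h1⟩
    · have h3 := h2 (e.symm η)
      rwa [show A (e.symm η) - z • (e.symm η : H) = η from e.apply_symm_apply η] at h3
    · exact congrArg Subtype.val (e.symm_apply_apply ψ)

theorem cW_sub (ζ ψ : Fer N) (z : ℂ) : cW N ζ - z • cW N ψ = cW N (ζ - z • ψ) := by
  rw [map_sub, map_smul]

theorem cW_norm (ψ : Fer N) : ‖cW N ψ‖ = ‖ψ‖ := (cW N).norm_map ψ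

theorem onto_iff (R : Nuclei) (z : ℂ) :
    (∀ η : L2 N, An η → ∃ ψ ζ, Hm R ψ ζ ∧ ζ - z • ψ = η) ↔
      ∀ η : Fer N, ∃ ψ : (ham (wP R N)).domain, ham (wP R N) ψ - z • (ψ : Fer N) = η := by
  refine ⟨fun h1 η => ?_, fun h1 η hη => ?_⟩
  · obtain ⟨ψ, ζ, h3, h4⟩ := h1 _ (anti_cW η)
    obtain ⟨Ψ, rfl, rfl⟩ := h3.ex
    exact ⟨Ψ, (cW N).injective ((cW_sub _ _ z).symm.trans h4)⟩
  · obtain ⟨Θ, rfl⟩ := hη.ex
    obtain ⟨Ψ, h3⟩ := h1 Θ
    refine ⟨_, _, ham_dom R Ψ, ?_⟩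
    rw [cW_sub, h3]

theorem bd_iff (R : Nuclei) (z : ℂ) (C : ℝ) :
    (∀ ψ ζ : L2 N, Hm R ψ ζ → ‖ψ‖ ≤ C * ‖ζ - z • ψ‖) ↔ ∀ ψ : (ham (wP R N)).domain,
      ‖(ψ : Fer N)‖ ≤ C * ‖ham (wP R N) ψ - z • (ψ : Fer N)‖ := by
  refine ⟨fun h2 ψ => ?_, fun h2 ψ ζ h => ?_⟩
  · have := h2 _ _ (ham_dom R ψ)
    rwa [cW_sub, cW_norm, cW_norm] at this
  · obtain ⟨Ψ, rfl, rfl⟩ := h.ex
    rw [cW_sub, cW_norm, cW_norm]
    exact h2 Ψ

theorem spec_eq (R : Nuclei) (N : ℕ) : sp R N = P370S.spec (ham (wP R N)) :=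
  Set.ext fun z => (not_congr (exists_congr fun C =>
    and_congr (onto_iff R z) (bd_iff R z C))).trans (spec_abs _ z).symm

theorem E_sp (R : Nuclei) (N : ℕ) : E R N = sInf {t : ℝ | (t : ℂ) ∈ sp R N} := rfl

theorem E_eq (R : Nuclei) (N : ℕ) (a b : ℚ) : (E R N : EReal) = (old R N a b).groundEnergy := by
  rw [E_sp, spec_eq]
  exact P370S.E0_eq (old R N 0 0)

theorem well' (R : Nuclei) (N : ℕ) :
    (∀ φ ψ : L2 N, Dm φ → Dm ψ →
      Integrable (kin φ ψ) ∧ Integrable fun x => pot R N x * ⟪φ x, ψ x⟫_ℂ) ∧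
    (∀ (ψ : ℕ → L2 N) (φ : L2 N), (∀ n, Dm (ψ n)) → Tendsto ψ atTop (𝓝 φ) →
      Tendsto (fun p : ℕ × ℕ => fm R (ψ p.1 - ψ p.2) (ψ p.1 - ψ p.2)) atTop (𝓝 0) →
      Dm φ ∧ Tendsto (fun n => fm R (ψ n - φ) (ψ n - φ)) atTop (𝓝 0)) ∧
    (∀ η : L2 N, An η → η ∈ closure {ψ | ∃ ζ, Hm R ψ ζ}) ∧
    (∀ φ θ : L2 N, An φ → An θ →
      (Hm R φ θ ↔ ∀ ψ ζ, Hm R ψ ζ → ⟪φ, ζ⟫_ℂ = ⟪θ, ψ⟫_ℂ)) ∧
    (∀ z ∈ sp R N, z.im = 0) ∧ IsLeast {t : ℝ | (t : ℂ) ∈ sp R N} (E R N) ∧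
    IsGLB {t | ∃ ψ : L2 N, Dm ψ ∧ ‖ψ‖ = 1 ∧ (fm R ψ ψ).re = t} (E R N) := by
  obtain ⟨cf, hg, sa, h4, h5, h6⟩ := op' R N
  have hE : E R N = P370S.E0 (old R N 0 0) := by rw [E_sp, spec_eq]; rfl
  have hs : ∀ {Φ Ψ : Fer N}, InH1 Φ → InH1 Ψ → InH1 (Φ - Ψ) := fun {Φ Ψ} a b => by
    obtain ⟨u, rfl⟩ := P370S.inH1_iff.1 a
    obtain ⟨v, rfl⟩ := P370S.inH1_iff.1 b
    exact P370S.inH1_iff.2 ⟨u - v, map_sub _ _ _⟩
  refine ⟨fun φ ψ a b => ?_, fun ψ φ a b d => ?_, fun η hη => ?_, fun φ θ a b => ?_,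
    by rw [spec_eq]; exact h4, by rw [hE, spec_eq]; exact h5, ?_⟩
  · obtain ⟨Φ, rfl⟩ := An.ex a.1
    obtain ⟨Ψ, rfl⟩ := An.ex b.1
    have := form_eq R ((dom_iff Φ).1 a) ((dom_iff Ψ).1 b)
    exact ⟨this.1, this.2.1⟩
  · choose Ψ hΨ using fun n => An.ex (a n).1
    obtain rfl : ψ = fun n => cW N (Ψ n) := funext fun n => (hΨ n).symm
    have a' := fun n => (dom_iff _).1 (a n)
    obtain ⟨Φ, rfl⟩ : φ ∈ Set.range (cW N) :=
      (cW N).isometry.isClosedEmbedding.isClosed_range.mem_of_tendsto b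
        (Eventually.of_forall fun n => ⟨_, rfl⟩)
    obtain ⟨h1, h2⟩ := cf.closed Ψ Φ a'
      ((cW N).isometry.isEmbedding.tendsto_nhds_iff.2 b) (d.congr fun p => by
        rw [← map_sub, (form_eq R (hs (a' _) (a' _)) (hs (a' _) (a' _))).2.2])
    refine ⟨(dom_iff Φ).2 h1, h2.congr fun n => ?_⟩
    rw [← map_sub, (form_eq R (hs (a' _) h1) (hs (a' _) h1)).2.2]
  · obtain ⟨Θ, rfl⟩ := hη.ex
    exact map_mem_closure (cW N).continuous (sa.dense_domain Θ) fun Ψ hΨ =>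
      ⟨_, ham_dom R ⟨Ψ, hΨ⟩⟩
  · obtain ⟨Φ, rfl⟩ := a.ex
    obtain ⟨Θ, rfl⟩ := b.ex
    rw [ham_iff, ← hg]
    conv_lhs => rw [← LinearPMap.isSelfAdjoint_def.1 sa]
    rw [SetLike.mem_coe, LinearPMap.adjoint_graph_eq_graph_adjoint sa.dense_domain,
      Submodule.mem_adjoint_iff]
    refine ⟨fun h ψ ζ hψ => ?_, fun h u v huv => ?_⟩
    · obtain ⟨Ψ, rfl, rfl⟩ := hψ.ex
      have := sub_eq_zero.1 (h _ _ (LinearPMap.mem_graph _ Ψ))
      rw [(cW N).inner_map_map, (cW N).inner_map_map]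
      exact (inner_conj_symm _ _).symm.trans
        ((congrArg (starRingEnd ℂ) this).trans (inner_conj_symm _ _))
    · obtain ⟨Ψ, rfl, rfl⟩ := (LinearPMap.mem_graph_iff _).1 huv
      have := h _ _ (ham_dom R Ψ)
      rw [(cW N).inner_map_map, (cW N).inner_map_map] at this
      exact sub_eq_zero.2 ((inner_conj_symm _ _).symm.trans
        ((congrArg (starRingEnd ℂ) this).trans (inner_conj_symm _ _)))
  · rw [hE]
    convert h6 using 1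
    ext t
    refine ⟨fun ⟨ψ, a, b, d⟩ => ?_, fun ⟨Ψ, a, b, d⟩ => ⟨cW N Ψ, (dom_iff Ψ).2 a,
      by rw [LinearIsometry.norm_map, b], by rw [(form_eq R a a).2.2, d]⟩⟩
    obtain ⟨Ψ, rfl⟩ := An.ex a.1
    have a' := (dom_iff Ψ).1 a
    exact ⟨Ψ, a', by rwa [LinearIsometry.norm_map] at b, by rwa [(form_eq R a' a').2.2] at d⟩

theorem well (R : Nuclei) (N : ℕ) : Well (Anti N) (pot R N) := well' R N

end

end Vale.Agent.N370X
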