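import Mathlib.Analysis.Distribution.Sobolev
import Mathlib.Computability.TuringMachine.Computable

/-!
# P370: definitions of the statement

Polynomial time, quantum circuits as matrices, QMA; the electronic Hamiltonian on
`L²(ℝ^{3N}; (ℂ²)^{⊗N})` through the Sobolev space and the Fourier transform of Mathlib.
-/

namespace Vale.Agent.N370X

open MeasureTheory FourierTransform Filter Topology
open scoped SchwartzMap InnerProductSpace Matrix Real

noncomputable section

/-- A function on bit strings is computed in polynomial time by a Turing machine. -/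
def PolyTime (f : List Bool → List Bool) : Prop :=
  ∃ M : Turing.TM2ComputableInPolyTime (fun w : List Bool => w) (fun w : List Bool => w) f,
    ∀ k, Finite (M.tm.Γ k)

/-- Self-delimiting code of a list of bit strings. -/
def tup (l : List (List Bool)) : List Bool :=
  l.flatMap fun x => (x.flatMap fun b => [true, b]) ++ [false]

/-- Code of a rational number: sign, numerator, denominator (lowest terms, binary). -/
def ratW (q : ℚ) : List Bool := tup [[decide (q.num < 0)], q.num.natAbs.bits, q.den.bits]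

/-- Gates on `n` qubits. -/
inductive Gate (n : ℕ) : Type
  | H (q : Fin n)
  | T (q : Fin n)
  | CX (c t : Fin n) (h : c ≠ t)

/-- The `2 × 2` matrix `U` acting on the qubit `q`. -/
def on {n : ℕ} (q : Fin n) (U : Bool → Bool → ℂ) : Matrix (Fin n → Bool) (Fin n → Bool) ℂ :=
  Matrix.of fun y z => if ∀ j, j ≠ q → y j = z j then U (y q) (z q) else 0

/-- The matrices of the Hadamard gate, of `diag(1, e^{iπ/4})` and of controlled NOT. -/
def Gate.mat {n : ℕ} : Gate n → Matrix (Fin n → Bool) (Fin n → Bool) ℂ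
  | .H q => on q fun a b => (if a && b then -1 else 1) / (√2 : ℝ)
  | .T q => on q fun a b => if a = b then (if a then Complex.exp (π / 4 * Complex.I) else 1) else 0
  | .CX c t _ => Matrix.of fun y z => if y = Function.update z t (xor (z t) (z c)) then 1 else 0

/-- Code of a gate. -/
def Gate.code {n : ℕ} : Gate n → List Bool
  | .H q => tup [[], (q : ℕ).bits, []]
  | .T q => tup [[true], (q : ℕ).bits, []]
  | .CX c t _ => tup [[false, true], (c : ℕ).bits, (t : ℕ).bits]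

/-- A circuit: `w` witness qubits, `a` ancillas, an output qubit, gates in the order of time. -/
structure Circuit : Type where
  w : ℕ
  a : ℕ
  out : Fin (w + a)
  gates : List (Gate (w + a))

/-- Code of a circuit. -/
def Circuit.code (C : Circuit) : List Bool :=
  tup [List.replicate C.w true, List.replicate C.a true, (C.out : ℕ).bits,
    tup (C.gates.map Gate.code)]

/-- The probability of the output `1` on the input `ψ ⊗ |0…0⟩`. -/
def Circuit.accept (C : Circuit) (ψ : (Fin C.w → Bool) → ℂ) : ℝ :=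
  ∑ y : Fin (C.w + C.a) → Bool with y C.out = true,
    ‖((C.gates.map Gate.mat).reverse.prod *ᵥ fun z =>
      if ∀ j, z (Fin.natAdd C.w j) = false then ψ fun i => z (Fin.castAdd C.a i) else 0) y‖ ^ 2

/-- The promise problem with YES set `Y` and NO set `X` is in QMA. -/
def InQMA (Y X : Set (List Bool)) : Prop :=
  ∃ C : List Bool → Circuit, PolyTime (fun x => (C x).code) ∧
    (∀ x ∈ Y, ∃ ψ, ∑ y, ‖ψ y‖ ^ 2 = 1 ∧ 2 / 3 ≤ (C x).accept ψ) ∧
    ∀ x ∈ X, ∀ ψ, ∑ y, ‖ψ y‖ ^ 2 = 1 → (C x).accept ψ ≤ 1 / 3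

section Op

variable {K : Type} [NormedAddCommGroup K] [InnerProductSpace ℂ K] (A D : K → Prop) (q : K → K → ℂ)

/-- `H ψ = η` for the operator `H`, in the subspace `A`, of the form `q` with domain `D`. -/
def Ham (ψ η : K) : Prop := D ψ ∧ A η ∧ ∀ φ, D φ → q φ ψ = ⟪φ, η⟫_ℂ

/-- The spectrum of `H`: `H - z` is not onto `A` with a bounded inverse. -/
def spec : Set ℂ :=
  {z | ¬ ∃ C : ℝ, (∀ η, A η → ∃ ψ ζ, Ham A D q ψ ζ ∧ ζ - z • ψ = η) ∧
    ∀ ψ ζ, Ham A D q ψ ζ → ‖ψ‖ ≤ C * ‖ζ - z • ψ‖}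

/-- `inf spec H`. -/
def bot : ℝ := sInf {t : ℝ | (t : ℂ) ∈ spec A D q}

/-- The form is closed; `H` is densely defined in `A` and self-adjoint, its spectrum is real;
`bot` is the least point of the spectrum and the infimum of the form on unit vectors. -/
def Good : Prop :=
  (∀ (ψ : ℕ → K) (φ : K), (∀ n, D (ψ n)) → Tendsto ψ atTop (𝓝 φ) →
    Tendsto (fun p : ℕ × ℕ => q (ψ p.1 - ψ p.2) (ψ p.1 - ψ p.2)) atTop (𝓝 0) →
    D φ ∧ Tendsto (fun n => q (ψ n - φ) (ψ n - φ)) atTop (𝓝 0)) ∧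
  (∀ η, A η → η ∈ closure {ψ | ∃ ζ, Ham A D q ψ ζ}) ∧
  (∀ φ θ, A φ → A θ → (Ham A D q φ θ ↔ ∀ ψ ζ, Ham A D q ψ ζ → ⟪φ, ζ⟫_ℂ = ⟪θ, ψ⟫_ℂ)) ∧
  (∀ z ∈ spec A D q, z.im = 0) ∧ IsLeast {t : ℝ | (t : ℂ) ∈ spec A D q} (bot A D q) ∧
  IsGLB {t | ∃ ψ, D ψ ∧ ‖ψ‖ = 1 ∧ (q ψ ψ).re = t} (bot A D q)

end Op

section Schr

variable {X F : Type} [NormedAddCommGroup X] [InnerProductSpace ℝ X] [FiniteDimensional ℝ X]
  [MeasurableSpace X] [BorelSpace X] [NormedAddCommGroup F] [InnerProductSpace ℂ F]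
  [CompleteSpace F]

variable (X F) in
/-- `L²(X; F)`. -/
abbrev LL : Type := Lp F 2 (volume : Measure X)

/-- The values of a vector. -/
def val (ψ : LL X F) : X → F := ψ

/-- The form domain: vectors with the symmetry `S` in the Sobolev space `H¹`. -/
def Dom (S : (X → F) → Prop) (ψ : LL X F) : Prop :=
  S (val ψ) ∧ TemperedDistribution.MemSobolev 1 2 (ψ : 𝓢'(X, F))

/-- The density of the form of `-(1/2) Δ` in Fourier variables. -/
def kin (φ ψ : LL X F) (ξ : X) : ℂ :=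
  (1 / 2 * (2 * π * ‖ξ‖) ^ 2 : ℝ) * ⟪val (𝓕 φ) ξ, val (𝓕 ψ) ξ⟫_ℂ

/-- The density of the form of the potential `w`. -/
def den (w : X → ℝ) (φ ψ : LL X F) (x : X) : ℂ := w x * ⟪val φ x, val ψ x⟫_ℂ

/-- The form of `-(1/2) Δ + w`. -/
def form (w : X → ℝ) (φ ψ : LL X F) : ℂ := (∫ ξ, kin φ ψ ξ) + ∫ x, den w φ ψ x

/-- The infimum of the spectrum of `-(1/2) Δ + w` on the vectors with the symmetry `S`. -/
def ground (S : (X → F) → Prop) (w : X → ℝ) : ℝ := bot (fun ψ => S (val ψ)) (Dom S) (form w)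

/-- The integrals of the form converge on its domain, and the form is `Good`. -/
def Well (S : (X → F) → Prop) (w : X → ℝ) : Prop :=
  (∀ φ ψ, Dom S φ → Dom S ψ → Integrable (kin φ ψ) ∧ Integrable (den w φ ψ)) ∧
  Good (fun ψ => S (val ψ)) (Dom S) (form w)

end Schr

/-- `ℝ^{3N}`. -/
abbrev Pos (N : ℕ) : Type := EuclideanSpace ℝ (Fin N × Fin 3)

/-- `(ℂ²)^{⊗N}`. -/
abbrev Spin (N : ℕ) : Type := EuclideanSpace ℂ (Fin N → Fin 2)

/-- Antisymmetry under simultaneous exchange of positions and spins. -/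
def Anti (N : ℕ) (f : Pos N → Spin N) : Prop :=
  ∀ σ : Equiv.Perm (Fin N), ∀ᵐ x : Pos N, ∀ s : Fin N → Fin 2,
    f (WithLp.toLp 2 fun p => x (σ p.1, p.2)) (s ∘ σ) = (Equiv.Perm.sign σ : ℤ) * f x s

/-- Lists of nuclei: position and charge. -/
abbrev Nuclei : Type := List ((Fin 3 → ℚ) × ℕ)

/-- Euclidean length in `ℝ³`. -/
def len (v : Fin 3 → ℝ) : ℝ := √(∑ k, v k ^ 2)

/-- The Coulomb potential: attraction by the nuclei, repulsion of the electrons. -/
def pot (R : Nuclei) (N : ℕ) (x : Pos N) : ℝ :=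
  -(∑ i, (R.map fun n => (n.2 : ℝ) / len fun k => x (i, k) - n.1 k).sum) +
    ∑ i, ∑ j ∈ Finset.Ioi i, 1 / len fun k => x (i, k) - x (j, k)

/-- The ground-state energy `inf spec H` of `N` electrons. -/
def E (R : Nuclei) (N : ℕ) : ℝ := ground (Anti N) (pot R N)

/-- Instances: nuclei, number of electrons, thresholds. -/
structure Inst : Type where
  R : Nuclei
  N : ℕ
  a : ℚ
  b : ℚ

/-- Code of an instance. -/
def Inst.code (I : Inst) : List Bool :=
  tup [tup (I.R.map fun n => tup [ratW (n.1 0), ratW (n.1 1), ratW (n.1 2), n.2.bits]),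
    List.replicate I.N true, ratW I.a, ratW I.b]

/-- The conditions on instances, with the promise `b - a ≥ L^{-c}`. -/
def Inst.Ok (c : ℕ) (I : Inst) : Prop :=
  I.R ≠ [] ∧ (I.R.map Prod.fst).Nodup ∧ (∀ n ∈ I.R, 1 ≤ n.2) ∧ 1 ≤ I.N ∧ I.a < I.b ∧
    1 / (I.code.length : ℚ) ^ c ≤ I.b - I.a

/-- The promise problem YES: `f ≤ a`, NO: `f ≥ b`, on the instances which satisfy `P`, is QMA-hard
under polynomial time many-one reductions. -/
def Hard (c : ℕ) (P : Nuclei → ℕ → Prop) (f : Nuclei → ℕ → ℝ) : Prop :=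
  ∀ Y X : Set (List Bool), InQMA Y X → ∃ r : List Bool → List Bool, PolyTime r ∧
    (∀ x ∈ Y, ∃ I : Inst, r x = I.code ∧ I.Ok c ∧ P I.R I.N ∧ f I.R I.N ≤ I.a) ∧
    ∀ x ∈ X, ∃ I : Inst, r x = I.code ∧ I.Ok c ∧ P I.R I.N ∧ I.b ≤ f I.R I.N

end

end Vale.Agent.N370X
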