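import Vale.Agent.P370Z.Fin.Main

/-! The ground-state energy of the instances of the reduction with fewer valence electrons. -/

namespace Vale.Agent.P370Z

open MeasureTheory Finset KIT

noncomputable section

namespace ION

theorem val_clock (d : CD) {v : SV} (h1 : v.1 < d.dC) (h2 : v.2.2.1 < d.dC) (q : ℕ) :
    v.val (d.qi q 0) = 0 := by
  unfold SV.val CD.qi
  rw [if_neg (by omega), if_neg (by omega), add_zero]

theorem base_zero (d : CD) {c : SV × SV} (hc : c ∈ d.base) {i j : ℕ} (h : i ≠ j) :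
    c.1.val (d.qi i 0) = 0 ∨ c.2.val (d.qi j 0) = 0 := by
  have h0 : 5 * d.nT < d.dC := by unfold CD.dC; omega
  simp only [CD.base, List.mem_append, List.mem_flatMap, List.mem_range, List.mem_map,
    List.mem_cons, List.not_mem_nil, or_false] at hc
  rcases hc with (((⟨t, ht, hc⟩ | ⟨j, -, rfl⟩) | rfl) | ⟨s, hs, s', -, rfl⟩) | ⟨q, -, hc⟩
  · have hd : 5 * t + 5 < d.dC := by unfold CD.dC; omega
    simp only [CD.stepTerms, CD.gateEdge, CD.edge, List.mem_append, List.mem_cons,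
      List.not_mem_nil, or_false] at hc
    rcases hc with ((rfl | rfl | rfl | rfl | rfl | rfl | rfl | rfl) | rfl | rfl) | rfl | rfl
    all_goals
      exact Or.inl (val_clock d (by simp only [SV.one]; omega) (by simp only [SV.one]; omega) _)
  · exact Or.inl (val_clock d (by simp only [SV.one]; omega) (by simp only [SV.one]; omega) _)
  · exact Or.inl (val_clock d h0 h0 _)
  · exact Or.inl (val_clock d hs hs _)
  · rcases hc with rfl | rfl | rfl | rfl <;> simp only [val_one, CD.qi] <;> split_ifs <;> omega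

theorem terms_zero (d : CD) {c : SV × SV} (hc : c ∈ d.terms) {i j : ℕ} (h : i ≠ j) :
    c.1.val (d.qi i 0) = 0 ∨ c.2.val (d.qi j 0) = 0 := by
  simp only [CD.terms, List.mem_append, List.mem_flatMap, List.mem_map, List.mem_replicate] at hc
  rcases hc with (((hc | ⟨c, hc, rfl⟩) | ⟨c, hc, rfl⟩) | ⟨k, -, -, rfl⟩) | ⟨k, -, -, rfl⟩
  · exact base_zero d hc h
  · exact Or.inr (val_zero _)
  · exact Or.inl (val_zero _)
  · exact Or.inr (val_zero _)
  · exact Or.inl (val_zero _)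

/-- the coarser blocks -/
def crs (d : CD) (j : ℕ) (k : Fin d.nD) : Fin (j + 1) :=
  ⟨min ((d.blkF k : ℕ) - 1) j, Nat.lt_succ_of_le (min_le_right _ _)⟩

theorem crs_eq {d : CD} (j : ℕ) {k k' : Fin d.nD} (h : d.blkF k = d.blkF k') :
    crs d j k = crs d j k' := by simp only [crs, h]

theorem kit_zero (d : CD) {j : ℕ} (hj : j < d.nq) : KitUp (crs d j) d.UF d.WF 0 := by
  let l0 : Fin (j + 1) → Fin d.nD := fun b =>
    ⟨d.qi b 0, by have := b.2; unfold CD.qi CD.nD; omega⟩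
  refine ⟨fun l => if l = l0 then 1 else 0, fun l hl b => ?_, by simp [nsqT], ?_⟩
  · obtain rfl : l = l0 := by simpa using hl
    have := b.2
    refine Fin.ext ?_
    simp only [crs, CD.blkF, l0, blk_qi d b (show 0 < 2 by omega), Fin.ofNat]
    rw [Nat.mod_eq_of_lt (by omega)]
    omega
  · rw [zero_mul]
    refine (sum_eq_zero fun e _ => sum_eq_zero fun i _ => sum_eq_zero fun i' hi => ?_).le
    have hne : i' ≠ i := (mem_erase.1 hi).1
    simp only [tens, ite_mul, one_mul, zero_mul, mul_ite, mul_one, mul_zero, sum_ite_eq',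
      mem_univ, if_true]
    rcases terms_zero d (getD_mem d e) (i := i) (j := i')
      (fun h => hne (Fin.ext h.symm)) with h | h
    · refine prod_eq_zero (mem_univ i) ?_
      simp only [two, if_true, outer, UF_eq, l0, h]
      simp
    · refine prod_eq_zero (mem_univ i') ?_
      simp only [two, if_neg hne, if_true, outer, WF_eq, l0, h]
      simp

theorem kit_any (d : CD) : KitUp d.blkF d.UF d.WF (d.nE * (d.nq + 1) ^ 2) := by
  have h0 : 0 < d.dC := Nat.succ_pos _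
  let l0 : Fin (d.nq + 1) → Fin d.nD := fun b =>
    ⟨if (b : ℕ) = 0 then 0 else d.qi (b - 1) 0, by
      have := b.2; unfold CD.qi CD.nD; split_ifs <;> omega⟩
  have hn : nsqT (fun l => if l = l0 then (1 : ℝ) else 0) = 1 := by simp [nsqT]
  refine ⟨fun l => if l = l0 then 1 else 0, fun l hl b => ?_, by rw [hn]; exact one_pos, ?_⟩
  · obtain rfl : l = l0 := by simpa using hl
    have := b.2
    refine Fin.ext ?_
    simp only [CD.blkF, l0, Fin.ofNat]
    split_ifs with hb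
    · rw [blk_clock d h0, hb, Nat.zero_mod]
    · rw [blk_qi d _ (show 0 < 2 by omega), Nat.mod_eq_of_lt (by omega)]
      omega
  · obtain ⟨k1, k2, -, -⟩ := kit_struct d
    have sq : ∀ x : ℝ, |x| ≤ 1 → 0 ≤ x * x ∧ x * x ≤ 1 := fun x hx =>
      ⟨mul_self_nonneg x, by nlinarith [abs_mul_abs_self x, abs_nonneg x]⟩
    rw [hn, mul_one]
    refine (sum_le_card_nsmul _ _ (((d.nq : ℝ) + 1) ^ 2) fun e _ =>
      (sum_le_card_nsmul _ _ ((d.nq : ℝ) + 1) fun i _ =>
        (sum_le_card_nsmul _ _ 1 fun i' _ => ?_).trans ?_).trans ?_).trans (by simp)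
    · simp only [tens, ite_mul, one_mul, zero_mul, mul_ite, mul_one, mul_zero, sum_ite_eq',
        mem_univ, if_true]
      have : ∀ k, 0 ≤ two i i' (outer (d.UF e)) (outer (d.WF e)) k (l0 k) (l0 k) ∧
          two i i' (outer (d.UF e)) (outer (d.WF e)) k (l0 k) (l0 k) ≤ 1 := fun k => by
        unfold two
        split_ifs
        · exact sq _ (k1.abs_le _ _)
        · exact sq _ (k2.abs_le _ _)
        · simp [idm]
      exact prod_le_one (fun k _ => (this k).1) fun k _ => (this k).2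
    · simp
    · rw [card_univ, Fintype.card_fin, nsmul_eq_mul, pow_two, Nat.cast_succ]

theorem mf_zero {C D Ec : Type} [Fintype C] [DecidableEq C] [Fintype D] [DecidableEq D]
    [Fintype Ec] (N : ℕ) (U W : Ec → D → ℝ) (nb : ℕ) : MFLow N C U W nb 0 := fun c _ => by
  rw [zero_mul]
  exact sum_nonneg fun _ _ => sum_nonneg fun _ _ => sum_nonneg fun _ hj =>
    MF.tens_two_nonneg (mem_erase.1 hj).1.symm _ _ _

end ION

namespace Cst

variable {c : Cst} (d : CD) {A : ℝ}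

attribute [local irreducible] kt kT k1 k2 k3 kM kL km eT eN eF eX eY p CD.nT CD.nu CD.nE CD.nD
  CD.SS CD.nq nW nC lam Tq tq bq Tc E0 sig

theorem Best.sig_ge' (h : c.Best A) : c.P d ^ (c.ez - 7) ≤ 3 / 1000 * (c.sig d : ℝ) := by
  have hP := h.P2 d
  have hP7 := h.P_big d
  have hP0 : 0 < c.P d := by linarith
  obtain ⟨l0, -, l2⟩ := h.lam_bd d
  have hS := c.SS_le_p d
  have h1 : (nW d.nE d.nD : ℝ) ≤ 2 * c.P d := by
    have : nW d.nE d.nD ≤ 2 * c.p d := by unfold nW; unfold CD.SS at hS; omega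
    unfold P; exact_mod_cast this
  have h2 : (d.nu : ℝ) ≤ c.P d := by
    have : d.nu ≤ c.p d := by unfold CD.SS at hS; omega
    unfold P; exact_mod_cast this
  have h4 : (3 * d.nT + 1 : ℝ) ≤ 3 * c.P d := by
    have : 3 * d.nT + 1 ≤ 3 * c.p d := by unfold CD.SS at hS; omega
    unfold P; exact_mod_cast this
  have h5 := nW_pos d
  have h6 := nu_pos d
  have ha : 9 / (68 * (2 * c.P d)) ≤ al d ^ 2 := by rw [al_sq]; gcongr
  have hR : 0 < c.Rn d := by unfold Rn; positivity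
  rw [sig_eq, show al d ^ 4 = (al d ^ 2) ^ 2 by ring]
  calc c.P d ^ (c.ez - 7) = 1 / (c.P d ^ (3 * c.km) * c.Rn d * c.P d ^ 5 * c.P d ^ 2) := by
        rw [show c.ez - 7 = -((3 * c.km + (c.k1 + 1) + 5 + 2 : ℕ) : ℤ) by unfold ez; omega, zpow_neg,
          zpow_natCast, pow_add, pow_add, pow_add, one_div]
        rfl
    _ ≤ 1 / (c.P d ^ (3 * c.km) * c.Rn d * c.P d ^ 5 * (10 ^ 7) ^ 2) := by gcongr
    _ ≤ 3 / 1000 * ((9 / (68 * (2 * c.P d))) ^ 2 /
        (8192 * c.P d ^ (3 * c.km) * c.Rn d * c.P d ^ 2 * (3 * c.P d))) := by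
        have : 3 / 1000 * ((9 / (68 * (2 * c.P d))) ^ 2 /
          (8192 * c.P d ^ (3 * c.km) * c.Rn d * c.P d ^ 2 * (3 * c.P d))) =
          1 / (c.P d ^ (3 * c.km) * c.Rn d * c.P d ^ 5 * (1000 * 136 ^ 2 * 8192 / 81)) := by
          field_simp
          norm_num
        rw [this]
        gcongr
        norm_num
    _ ≤ _ := by gcongr

theorem Best.low' (h : c.Best A) (N nb : ℕ) (hN : N = 2 * nC d.nE d.nD + nb) (hle : N ≤ d.NN) :
    (((c.lam d : ℝ) ^ 2 * (N * (c.E0 d + c.ω / 2) - 2 * nC d.nE d.nD * c.Tc d -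
      c.P d ^ (c.ez - 7)) : ℝ) : EReal) ≤ ({ c.inst d with N := N } : Instance).groundEnergy := by
  have h3 := h.exps
  have hP := h.P2 d
  have hP7 := h.P_big d
  have hP0 : 0 < c.P d := by linarith
  obtain ⟨f, r, δ, τ, S, S', ϱ, ε, η, hob, hct, hδ, hτ, hε, hη, oδ, oτ, oε, oη⟩ := h.onebody d
  obtain ⟨-, s2, s3, s4⟩ := sizes (c := c) d
  have s1 : N = 2 * Fintype.card (Core d.nE d.nD) + nb := by rw [card_core, hN]
  have s2' : (N : ℝ) ≤ c.P d := (Nat.cast_le.2 hle).trans s2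
  obtain ⟨l0, og, -⟩ := h.lam_bd d
  obtain ⟨oT, hT⟩ := h.T_bd d
  obtain ⟨ot, ht⟩ := h.t_bd d
  have hb := h.b_eq d
  have hb0 : (0 : ℝ) < c.bq d := by rw [hb]; exact zpow_pos hP0 _
  have z1 : c.ez = -(3 * c.km + c.k1 + 1) := rfl
  have hR : 0 < c.Rn d := by unfold Rn; positivity
  have hκ0 : 0 ≤ 2 / (3 * c.Rn d) := by positivity
  have oκ : Ob (c.P d) (2 / (3 * c.Rn d)) (-(c.k1 + 1)) := by
    have := (h.kap d (x := 2 / 3) (by norm_num) (by norm_num) (y := 1) le_rfl).2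
    rwa [one_mul, div_div] at this
  have eT : ((c.Tc d : ℚ) : ℝ) = 2 * c.Tq d - c.tq d - c.bq d := by unfold Tc; push_cast; rfl
  have hTc : (c.Tq d : ℝ) ≤ c.Tc d := by
    have o1 := (ot.add' hP (hb ▸ Ob.zp hP (c.ez + 20)) (c := c.ez + c.kT - 1) (by omega)
      (by omega)).le
    rw [eT]; linarith only [o1, hT]
  have hγ : c.P d ^ (c.ez + 19) ≤ (c.bq d : ℝ) / 40 := by
    rw [hb, show c.ez + 20 = c.ez + 19 + 1 by ring, zpow_add_one₀ hP0.ne', le_div_iff₀ (by norm_num)]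
    have := zpow_pos hP0 (c.ez + 19)
    gcongr
    linarith
  have o2 : Ob (c.P d) 2 1 := Ob.of_le (by norm_num) hP
  have o3 : Ob (c.P d) 3 1 := Ob.of_le (by norm_num) (by linarith)
  have oP := Ob.self hP
  refine bridge_low { c.inst d with N := N } _ _ l0 fun Ψ hΨ => le_trans ?_
    (mb_low N _ s1 _ (h.potOK d) f r _ _ _ δ τ hob d.blkF _ _ S S' ϱ _ _ ε η hct _
      (ION.mf_zero _ _ _ _) (amp_le d).1
      (amp_le d).2 (1 / (c.lam d : ℝ)) (c.P d) (by linarith) s2' s3 s4 (by positivity) hκ0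
      le_rfl zero_le_one (by positivity) ?_ ?_ hδ hτ hε (oε.le_one hP (by omega)) Ψ hΨ)
  · have hn : 0 ≤ nsq Ψ := sum_nonneg fun s _ => integral_nonneg fun x => sq_nonneg _
    refine mul_le_mul_of_nonneg_right ?_ hn
    have e2 := ((((oP.mul hP oδ).add' hP
      ((o2.mul hP (((oP.pow hP 2).mul hP oτ).pow hP 2)).div hP (hT.trans hTc)) (c := c.ez - 9)
      (by omega) (by omega)).add' hP
      ((o2.mul hP (((og.mul hP oκ).mul hP (oP.pow hP 3)).pow hP 2)).div hP hγ) (c := c.ez - 8)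
      (by omega) (by omega)).add' hP
      ((((o3.mul hP og).mul hP oκ).mul hP (oP.pow hP 5)).mul hP oε) (c := c.ez - 7)
      (by omega) (by omega)).le
    rw [mul_zero, card_core]
    linarith only [e2]
  · have o1 := (Ob.mono hP (hb ▸ Ob.zp hP (c.ez + 20)) (b := c.ez + c.kT - 1) (by omega)).le
    linarith only [o1, hT, hTc, hb0]
  · exact (((o2.mul hP og).mul hP oκ).mono hP (by omega)).le.trans hγ

theorem Best.up' (h : c.Best A) {B : Type} [Fintype B] [DecidableEq B] (blk : Fin d.nD → B)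
    (hblk : ∀ k k', d.blkF k = d.blkF k' → blk k = blk k') {a : ℝ} (ha : KitUp blk d.UF d.WF a)
    (N : ℕ) (hN : N = 2 * nC d.nE d.nD + Fintype.card B) (hle : N ≤ d.NN) :
    ({ c.inst d with N := N } : Instance).groundEnergy ≤
      (((c.lam d : ℝ) ^ 2 * (N * (c.E0 d + c.ω / 2) - 2 * nC d.nE d.nD * c.Tc d +
        1 / (c.lam d : ℝ) * (5 / (7 * c.Rn d)) * (al d ^ 4 * a) + c.P d ^ (c.ez - 7)) : ℝ) :
          EReal) := by
  have h3 := h.exps
  have hP := h.P2 d
  have hP7 := h.P_big d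
  have hP0 : 0 < c.P d := by linarith
  obtain ⟨f, r, δ, τ, S, S', ϱ, ε, η, hob, hct, hδ, hτ, hε, hη, oδ, oτ, oε, oη⟩ := h.onebody d
  obtain ⟨-, s2, s3, s4⟩ := sizes (c := c) d
  have s1 : N = 2 * Fintype.card (Core d.nE d.nD) + Fintype.card B := by rw [card_core, hN]
  have s2' : (N : ℝ) ≤ c.P d := (Nat.cast_le.2 hle).trans s2
  obtain ⟨l0, og, -⟩ := h.lam_bd d
  have z1 : c.ez = -(3 * c.km + c.k1 + 1) := rfl
  have hR : 0 < c.Rn d := by unfold Rn; positivity
  have hκ0 : 0 ≤ 5 / (7 * c.Rn d) := by positivity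
  have oκ : Ob (c.P d) (5 / (7 * c.Rn d)) (-(c.k1 + 1)) := by
    have := (h.kap d (x := 5 / 7) (by norm_num) (by norm_num) (y := 1) le_rfl).2
    rwa [one_mul, div_div] at this
  have o3 : Ob (c.P d) 3 1 := Ob.of_le (by norm_num) (by linarith)
  have oP := Ob.self hP
  have hk := (kit_struct d).2.2.1
  have hk' : BlkOK blk d.UF d.WF :=
    ⟨fun e k k' a b => hblk _ _ (hk.blkU e k k' a b), fun e k k' a b => hblk _ _ (hk.blkW e k k' a b)⟩
  have hct' : CT f blk (fun e k => al d * d.UF e k) (fun e k => al d * d.WF e k) S S' ϱ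
      (2 / (3 * c.Rn d)) (5 / (7 * c.Rn d)) ε η :=
    { hct with
      rem := fun μ ν hs => hct.rem μ ν fun h => hs (by
        rcases μ with μ | μ <;> rcases ν with ν | ν <;> first | exact hblk _ _ h | exact h) }
  obtain ⟨cc, hcc⟩ := mf_up (C := Core d.nE d.nD) N s1 _ _ _ _
    (hk'.smul _) (ha.smul (al d))
  obtain ⟨Ψ, h1, h2, h4⟩ := mb_up N _ (h.potOK d) f r _ _ _ δ τ hob _ _ _ S S' ϱ
    _ _ ε η hct' _ cc hcc (amp_le d).1 (amp_le d).2 (1 / (c.lam d : ℝ)) (c.P d) (by linarith) s2' s3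
    s4 (by positivity) hκ0 hδ hε (oε.le_one hP (by omega)) hη
  refine bridge_up { c.inst d with N := N } _ _ l0
    ⟨Ψ, h1, h2, h4.trans (mul_le_mul_of_nonneg_right ?_ h2.le)⟩
  have e2 := ((((oP.pow hP 2).mul hP oδ).add' hP
    ((((o3.mul hP og).mul hP oκ).mul hP (oP.pow hP 5)).mul hP oε) (c := c.ez - 9)
    (by omega) (by omega)).add' hP
    ((og.mul hP (oP.pow hP 4)).mul hP oη) (c := c.ez - 7) (by omega) (by omega)).le
  rw [card_core]
  linarith only [e2]

theorem Best.up0 (h : c.Best A) (N j : ℕ) (hN : N = 2 * nC d.nE d.nD + (j + 1)) (hj : j < d.nq) :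
    ({ c.inst d with N := N } : Instance).groundEnergy ≤
      (((c.lam d : ℝ) ^ 2 * (N * (c.E0 d + c.ω / 2) - 2 * nC d.nE d.nD * c.Tc d +
        c.P d ^ (c.ez - 7)) : ℝ) : EReal) := by
  have := h.up' d _ (fun _ _ => ION.crs_eq j) (ION.kit_zero d hj) N (by rw [Fintype.card_fin, hN])
    (by unfold CD.NN; omega)
  rwa [mul_zero, mul_zero, add_zero] at this

theorem Best.up1 (h : c.Best A) : (c.inst d).groundEnergy ≤
    (((c.lam d : ℝ) ^ 2 * (d.NN * (c.E0 d + c.ω / 2) - 2 * nC d.nE d.nD * c.Tc d + 1 +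
      c.P d ^ (c.ez - 7)) : ℝ) : EReal) := by
  have h3 := h.exps
  have hP := h.P2 d
  obtain ⟨s1, s2, -, s4⟩ := sizes (c := c) d
  obtain ⟨-, og, -⟩ := h.lam_bd d
  obtain ⟨a0, a1⟩ := al_bd d
  have oκ : Ob (c.P d) (5 / (7 * c.Rn d)) (-(c.k1 + 1)) := by
    have := (h.kap d (x := 5 / 7) (by norm_num) (by norm_num) (y := 1) le_rfl).2
    rwa [one_mul, div_div] at this
  have s5 : (d.nq : ℝ) + 1 ≤ c.P d :=
    le_trans (by exact_mod_cast (show d.nq + 1 ≤ d.NN by unfold CD.NN; omega)) s2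
  rw [Fintype.card_fin] at s4
  have e := ((og.mul hP oκ).mul hP ((Ob.of_le_one (pow_nonneg a0 4) (pow_le_one₀ a0 a1)).mul hP
    ((Ob.of_le (Nat.cast_nonneg _) s4).mul hP ((Ob.of_le (by positivity) s5).pow hP 2)))).le_one hP
    (by omega)
  refine (h.up' d _ (fun _ _ => id) (ION.kit_any d) d.NN (by rw [s1, card_core]) le_rfl).trans ?_
  exact EReal.coe_le_coe_iff.2 (mul_le_mul_of_nonneg_left (by linarith only [e]) (sq_nonneg _))

theorem Best.err_le (h : c.Best A) : c.P d ^ (c.ez - 7) ≤ 1 :=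
  (Ob.zp (h.P2 d) _).le_one (h.P2 d) (by unfold ez; omega)

theorem Best.e_neg (h : c.Best A) : (c.E0 d : ℝ) + c.ω / 2 ≤ -4 := by
  have h3 := h.exps
  have hP := h.P2 d
  obtain ⟨-, n2, -, n4⟩ := h.num.pH d
  have n2' : (1 / 16 : ℝ) ≤ c.pH d := by
    have := (Rat.cast_le (K := ℝ)).2 n2
    push_cast at this
    exact this
  have k4 : (4 : ℝ) ≤ c.kH d := by
    have h1 : 1 / c.P d ^ (10 * c.km) ≤ 1 :=
      div_le_one_of_le₀ (one_le_pow₀ (by linarith)) (by positivity)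
    have h2 : Real.log 2 ≤ Real.log (1 + √2) :=
      Real.log_le_log two_pos (by linarith [Real.one_lt_sqrt_two])
    rw [NUM.kap0_eq] at n4
    linarith [(abs_le.1 n4).1, Real.log_two_gt_d9]
  have hL : 4 * (c.Lz d : ℝ) ≤ c.L d := by
    have h1 := h.Lz_le d
    have h2 : c.p d ^ (c.kL + 1 + 1) ≤ c.L d := h.pow_le d (by omega)
    have h4 := h.p_big d
    have h5 : c.p d ^ (c.kL + 1) * 4 ≤ c.p d ^ (c.kL + 1) * c.p d :=
      Nat.mul_le_mul_left _ (by omega)
    rw [pow_succ] at h2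
    exact_mod_cast (show 4 * c.Lz d ≤ c.L d by omega)
  have hZ : (1 : ℝ) ≤ c.Lz d := by exact_mod_cast (show 1 ≤ c.Lz d by unfold Lz; omega)
  have ho : (1 : ℝ) ≤ c.om := by exact_mod_cast h.om
  have hH : (0 : ℝ) ≤ c.H := Nat.cast_nonneg _
  have e : (c.E0 d : ℝ) = -(6 * (3 * c.om ^ 2) * c.Lz d * (c.pH d * c.L d * c.kH d)) +
      3 * (3 * c.om ^ 2) * (c.Lz d : ℝ) ^ 2 / 2 - c.H := by
    unfold E0 rho; push_cast; ring
  have h1 : 1 / 16 * (4 * c.Lz d) * 4 ≤ (c.pH d : ℝ) * c.L d * c.kH d := by gcongr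
  have h2 := mul_le_mul_of_nonneg_left h1 (show (0 : ℝ) ≤ 6 * (3 * c.om ^ 2) * c.Lz d by positivity)
  have h4 : (c.om : ℝ) * 1 ≤ c.om ^ 2 * (c.Lz d : ℝ) ^ 2 :=
    mul_le_mul (by nlinarith only [ho]) (one_le_pow₀ hZ) zero_le_one (by positivity)
  rw [e, ω]
  nlinarith only [h2, h4, ho, hH]

end Cst

end

end Vale.Agent.P370Z
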