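import Vale.Agent.N370X.Qma
import Vale.Agent.N370X.Ion

/-! The three reductions. -/

namespace Vale.Agent.N370X

open P370Z P370Z.PTQ
open Vale.Agent.Lib.PolyTime (PT PBd Un)

noncomputable section

variable {c : Cst} {A : ℝ}

attribute [local irreducible] Cst.lam Cst.E0 Cst.sig Cst.Tc Cst.nuclei nC CD.nE CD.nD

/-- the energies of the three charge states, above the reference line -/
structure Three (c : Cst) (d : CD) (u v w : ℝ) : Prop where
  hu : E (nuc (c.nuclei d)) (d.NN - 1 + 1) = (c.lam d : ℝ) ^ 2 * (c.ebase d + u)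
  hv : E (nuc (c.nuclei d)) (d.NN - 1) =
    (c.lam d : ℝ) ^ 2 * (c.ebase d - (c.E0 d + 3 * c.om / 2 : ℚ) + v)
  hw : E (nuc (c.nuclei d)) (d.NN - 1 - 1) =
    (c.lam d : ℝ) ^ 2 * (c.ebase d - 2 * (c.E0 d + 3 * c.om / 2 : ℚ) + w)
  bv : |v| ≤ 3 / 1000 * c.sig d
  bw : |w| ≤ 3 / 1000 * c.sig d
  b1 : E (nuc (c.nuclei d)) (d.NN - 1 + 1) < E (nuc (c.nuclei d)) (d.NN - 1)
  b2 : E (nuc (c.nuclei d)) (d.NN - 1) < E (nuc (c.nuclei d)) (d.NN - 1 - 1)
  yes : (c.inst d).groundEnergy ≤ ((((c.inst d).a : ℚ) : ℝ) : EReal) → u ≤ 29 / 100 * c.sig d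
  no : ((((c.inst d).b : ℚ) : ℝ) : EReal) ≤ (c.inst d).groundEnergy → 37 / 100 * c.sig d ≤ u

theorem three (h : c.Best A) (d : CD) (hn : 1 ≤ d.n) : ∃ u v w, Three c d u v w := by
  have l0 : 0 < (c.lam d : ℝ) ^ 2 := pow_pos (h.lam_bd d).1 2
  obtain ⟨m, hm⟩ : ∃ m, d.n = m + 1 := ⟨d.n - 1, by omega⟩
  have n1 : d.NN - 1 + 1 = d.NN := by unfold CD.NN; omega
  have n2 : d.NN - 1 = 2 * nC d.nE d.nD + (m + 1 + 1) := by unfold CD.NN CD.nq; omega
  have n3 : d.NN - 1 - 1 = 2 * nC d.nE d.nD + (m + 1) := by omega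
  have c2 : ((d.NN - 1 : ℕ) : ℝ) = d.NN - 1 := by rw [← n1]; simp
  have c3 : ((d.NN - 1 - 1 : ℕ) : ℝ) = d.NN - 2 := by
    rw [Nat.cast_sub (by omega), c2]; ring
  have e0 : (E (nuc (c.nuclei d)) d.NN : EReal) = (c.inst d).groundEnergy := E_nuc (c.inst d) _
  have u1 := h.up1 d
  have u2 := h.up0 d _ _ n2 (by unfold CD.nq; omega)
  have u3 := h.up0 d _ _ n3 (by unfold CD.nq; omega)
  have v2 := h.low' d _ _ n2 (by omega)
  have v3 := h.low' d _ _ n3 (by omega)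
  rw [← e0, EReal.coe_le_coe_iff] at u1
  rw [← E_nuc, EReal.coe_le_coe_iff, c2] at u2 v2
  rw [← E_nuc, EReal.coe_le_coe_iff, c3] at u3 v3
  have x1 := h.err_le d
  have x2 := h.sig_ge' d
  have x3 := h.e_neg d
  have eb : ((c.ebase d : ℚ) : ℝ) = d.NN * (c.E0 d + c.ω / 2) - 2 * nC d.nE d.nD * c.Tc d := by
    simp only [Cst.ebase, Cst.ω]; push_cast; rfl
  have ee : ((c.E0 d + 3 * c.om / 2 : ℚ) : ℝ) = c.E0 d + c.ω / 2 := by
    simp only [Cst.ω]; push_cast; rfl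
  have ya := Cst.inst_a (c := c) d
  have yb := Cst.inst_b (c := c) d
  change E (nuc (c.nuclei d)) _ ≤ _ at u2 u3
  change _ ≤ E (nuc (c.nuclei d)) _ at v2 v3
  generalize (c.P d) ^ (c.ez - 7) = x at *
  rw [← div_le_iff₀' l0] at u1 u2 u3
  rw [← le_div_iff₀' l0] at v2 v3
  refine ⟨E (nuc (c.nuclei d)) d.NN / (c.lam d : ℝ) ^ 2 - c.ebase d,
    E (nuc (c.nuclei d)) (d.NN - 1) / (c.lam d : ℝ) ^ 2 - (c.ebase d - (c.E0 d + c.ω / 2)),
    E (nuc (c.nuclei d)) (d.NN - 1 - 1) / (c.lam d : ℝ) ^ 2 - (c.ebase d - 2 * (c.E0 d + c.ω / 2)),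
    ?_, ?_, ?_, ?_, ?_, ?_, ?_, fun y => ?_, fun y => ?_⟩
  · rw [n1, add_sub_cancel, mul_div_cancel₀ _ l0.ne']
  · rw [ee, add_sub_cancel, mul_div_cancel₀ _ l0.ne']
  · rw [ee, add_sub_cancel, mul_div_cancel₀ _ l0.ne']
  · rw [eb, abs_le]; constructor <;> linarith
  · rw [eb, abs_le]; constructor <;> linarith
  · rw [n1, ← div_lt_div_iff_of_pos_right l0]; linarith
  · rw [← div_lt_div_iff_of_pos_right l0]; linarith
  · rw [← e0, EReal.coe_le_coe_iff, ya, ← div_le_iff₀' l0] at y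
    rw [eb]; linarith
  · rw [← e0, EReal.coe_le_coe_iff, yb, ← le_div_iff₀' l0] at y
    rw [eb]; linarith

theorem code_two (I : Instance) : 2 ≤ I.code.length := by
  have h : ∀ x y : Word, y.length + 1 ≤ (pairW x y).length := fun x y => by
    induction x with
    | nil => simp [pairW]
    | cons b x ih => simp only [pairW, List.length_cons]; omega
  have h1 := h (listW (I.nuclei.map fun n =>
    listW [P370Z.ratW n.1.1, P370Z.ratW n.1.2.1, P370Z.ratW n.1.2.2, n.2.bits]))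
    (listW [unaryW I.N, P370Z.ratW I.a, P370Z.ratW I.b])
  have h2 := h (unaryW I.N) (listW [P370Z.ratW I.a, P370Z.ratW I.b])
  change _ ≤ I.code.length at h1
  change _ ≤ (listW [unaryW I.N, P370Z.ratW I.a, P370Z.ratW I.b]).length at h2
  omega

/-- the instance with `N` electrons and thresholds around `t` -/
def ins (c : Cst) (d : CD) (N : ℕ) (t : ℚ) : Instance :=
  ⟨c.nuclei d, N, c.lam d ^ 2 * (t + 30 / 100 * c.sig d), c.lam d ^ 2 * (t + 36 / 100 * c.sig d)⟩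

theorem red {k : ℕ} (hk : 0 < k) {P : Nuclei → ℕ → Prop} {f : Nuclei → ℕ → ℝ} (N : CD → ℕ)
    (t : Cst → CD → ℚ) (h1 : PT ∅ fun d => Un.mk (N d)) (h2 : ∀ d, d.NN - 1 ≤ N d)
    (h3 : ∀ c : Cst, (PT ∅ fun n : Un => c.pHat n.v) → (PT ∅ fun n : Un => c.kHat n.v) →
      PT ∅ (t c))
    (h4 : ∀ c d u v w, Three c d u v w → P (nuc (c.nuclei d)) (N d) ∧
      ∃ z, |z| ≤ |v| + |v| + |w| ∧
        f (nuc (c.nuclei d)) (N d) = (c.lam d : ℝ) ^ 2 * (t c d + u + z)) : Hard k P f := by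
  refine hard_of ?_
  rintro Y X ⟨V, hV, hY, hX⟩
  obtain ⟨c, A, h, hp, hq⟩ := exists_best
  have hid : PT ∅ fun d : CD => d := PT.id
  have hn : ∀ x, 1 ≤ (V x).cd.n := fun x => (V x).out.pos
  have ok : ∀ d, (ins c d (N d) (t c d)).Valid ∧ (ins c d (N d) (t c d)).Gap k := fun d => by
    obtain ⟨⟨a1, a2, a3, -⟩, g, -⟩ := h.val d
    have g0 := g 0
    simp only [Instance.Gap, pow_zero, Cst.inst] at g0
    have g1 : (1 / 2 : ℚ) ≤ (ins c d (N d) (t c d)).b - (ins c d (N d) (t c d)).a := by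
      simp only [ins]; linarith
    have h5 := h2 d
    refine ⟨⟨a1, a2, a3, ?_, by linarith⟩, le_trans (one_div_le_one_div_of_le two_pos ?_) g1⟩
    · change 1 ≤ N d
      unfold CD.NN CD.nq at h5; omega
    · have : (2 : ℚ) ≤ (ins c d (N d) (t c d)).code.length := by exact_mod_cast code_two _
      exact this.trans (le_self_pow₀ (by linarith) hk.ne')
  refine ⟨fun x => (ins c (V x).cd (N _) (t c _)).code,
    pt_glue (fun d => ins c d (N d) (t c d)) (pt_nuclei c hp) h1 ?_ ?_ V hV,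
    fun x hx => ?_, fun x hx => ?_⟩
  · exact PT_ratMul (PT_ratPowConst (PT_lam c hp hid) 2)
      (PT_ratAdd (h3 c hp hq) (PT_ratMul (PT.const _) (PT_sig c hp hid)))
  · exact PT_ratMul (PT_ratPowConst (PT_lam c hp hid) 2)
      (PT_ratAdd (h3 c hp hq) (PT_ratMul (PT.const _) (PT_sig c hp hid)))
  · obtain ⟨ψ, a, b⟩ := hY x hx
    obtain ⟨u, v, w, T⟩ := three h _ (hn x)
    obtain ⟨p, z, hz, e⟩ := h4 _ _ _ _ _ T
    refine ⟨_, rfl, (ok _).1, (ok _).2, p, e.trans_le ?_⟩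
    simp only [ins]
    push_cast
    refine mul_le_mul_of_nonneg_left ?_ (sq_nonneg _)
    linarith [T.yes (h.up _ (kit_up (V x) ψ a b)), T.bv, T.bw, le_abs_self z, abs_nonneg v]
  · obtain ⟨u, v, w, T⟩ := three h _ (hn x)
    obtain ⟨p, z, hz, e⟩ := h4 _ _ _ _ _ T
    refine ⟨_, rfl, (ok _).1, (ok _).2, p, le_of_le_of_eq ?_ e.symm⟩
    simp only [ins]
    push_cast
    refine mul_le_mul_of_nonneg_left ?_ (sq_nonneg _)
    linarith [T.no (h.low _ (kit_low (V x) (hX x hx))), T.bv, T.bw, neg_abs_le z, abs_nonneg v]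

theorem nn (d : CD) : d.NN - 1 + 1 = d.NN := by unfold CD.NN; omega

theorem hard1 {k : ℕ} (hk : 0 < k) : Hard k (fun R N => E R N < E R (N - 1)) E :=
  red hk CD.NN Cst.ebase (PT.mkUn (PT_NN PT.id) (PBd_NN PT.id)) (fun _ => Nat.sub_le _ _)
    (fun c hp hq => PT_ebase c hp hq PT.id) fun c d u v w T =>
      ⟨nn d ▸ T.b1, 0, by rw [abs_zero]; positivity, by rw [add_zero, ← T.hu, nn]⟩

theorem hard0 {k : ℕ} (hk : 0 < k) : Hard k (fun _ _ => True) E := fun Y X h =>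
  (hard1 hk Y X h).imp fun _ g => ⟨g.1,
    fun x hx => (g.2.1 x hx).imp fun _ a => ⟨a.1, a.2.1, trivial, a.2.2.2⟩,
    fun x hx => (g.2.2 x hx).imp fun _ a => ⟨a.1, a.2.1, trivial, a.2.2.2⟩⟩

theorem hard2 {k : ℕ} (hk : 0 < k) :
    Hard k (fun R N => E R N < E R (N - 1)) fun R N => E R N - E R (N - 1) :=
  red hk CD.NN (fun c d => c.E0 d + 3 * c.om / 2) (PT.mkUn (PT_NN PT.id) (PBd_NN PT.id))
    (fun _ => Nat.sub_le _ _) (fun c hp hq => PT_ratAdd (PT_E0 c hp hq PT.id) (PT.const _))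
    fun c d u v w T => ⟨nn d ▸ T.b1, -v, by rw [abs_neg]; linarith [abs_nonneg v, abs_nonneg w], by
      have := T.hu
      rw [nn] at this
      rw [this, T.hv]; ring⟩

theorem hard3 {k : ℕ} (hk : 0 < k) :
    Hard k (fun R N => E R (N + 1) < E R N ∧ E R N < E R (N - 1))
      fun R N => E R (N + 1) - 2 * E R N + E R (N - 1) :=
  red hk (fun d => d.NN - 1) (fun _ _ => 0)
    (PT.mkUn ((PT_NN PT.id).sub (PT.const 1)) ((PBd_NN PT.id).mono fun _ => Nat.sub_le _ _))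
    (fun _ => le_rfl) (fun _ _ _ => PT.const _) fun c d u v w T =>
      ⟨⟨T.b1, T.b2⟩, -v + -v + w,
        ((abs_add_le _ _).trans (add_le_add_left (abs_add_le _ _) _)).trans_eq (by rw [abs_neg]),
        by rw [T.hu, T.hv, T.hw]; push_cast; ring⟩

end

end Vale.Agent.N370X
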