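import Vale.Agent.N370X.Br

/-! Circuits as matrices and the verifiers of the reduction; transfer of hardness. -/

namespace Vale.Agent.N370X

open P370Z (listW pairW runGates Verifier Instance)
open scoped Matrix Real

noncomputable section

theorem tup_eq (l : List (List Bool)) : tup l = listW l := by
  have h : ∀ x y : List Bool, pairW x y = ((x.flatMap fun b => [true, b]) ++ [false]) ++ y := by
    intro x y
    induction x with
    | nil => rfl
    | cons b x ih => simp [pairW, ih]
  induction l with
  | nil => rfl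
  | cons x l ih => rw [listW, h, ← ih]; rfl

theorem ratW_eq (q : ℚ) : ratW q = P370Z.ratW q := tup_eq _

/-- the gate -/
def Gate.old {n : ℕ} : Gate n → P370Z.Gate n
  | .H q => .had q
  | .T q => .tee q
  | .CX c t h => .cnot c t h

theorem on_mul {n : ℕ} (q : Fin n) (U : Bool → Bool → ℂ) (ψ : (Fin n → Bool) → ℂ)
    (y : Fin n → Bool) : (on q U *ᵥ ψ) y = U (y q) false * ψ (Function.update y q false) +
      U (y q) true * ψ (Function.update y q true) := by
  have hb : ∀ b, ∀ j, j ≠ q → y j = Function.update y q b j := fun b j hj =>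
    (Function.update_of_ne hj _ _).symm
  simp only [Matrix.mulVec, dotProduct, on, Matrix.of_apply]
  rw [Finset.sum_eq_add (Function.update y q false) (Function.update y q true)]
  · rw [if_pos (hb _), if_pos (hb _), Function.update_self, Function.update_self]
  · intro h
    simpa using congrFun h q
  · intro z _ hz
    rw [if_neg, zero_mul]
    intro h
    have : z = Function.update y q (z q) := funext fun j => by
      by_cases hj : j = q
      · rw [hj, Function.update_self]
      · rw [Function.update_of_ne hj, h j hj]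
    cases hq : z q
    · exact hz.1 (hq ▸ this)
    · exact hz.2 (hq ▸ this)
  · simp
  · simp

theorem exp_eq : Complex.exp (π / 4 * Complex.I) = (1 + Complex.I) / (√2 : ℝ) := by
  have h : (π / 4 : ℂ) = ((π / 4 : ℝ) : ℂ) := by push_cast; rfl
  have h2 : ((√2 : ℝ) : ℂ) * (√2 : ℝ) = 2 := by
    rw [← Complex.ofReal_mul, Real.mul_self_sqrt (by norm_num)]; rfl
  have h3 : ((√2 : ℝ) : ℂ) ≠ 0 := by simp
  rw [h, Complex.exp_mul_I, ← Complex.ofReal_cos, ← Complex.ofReal_sin, Real.cos_pi_div_four,
    Real.sin_pi_div_four, eq_div_iff h3]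
  push_cast
  linear_combination (1 + Complex.I) / 2 * h2

theorem Gate.mat_mul {n : ℕ} (g : Gate n) (ψ : (Fin n → Bool) → ℂ) :
    g.mat *ᵥ ψ = g.old.act ψ := by
  funext y
  cases g with
  | H q =>
    rw [Gate.mat, on_mul]
    simp only [Gate.old, P370Z.Gate.act]
    cases y q <;> simp <;> ring
  | T q =>
    rw [Gate.mat, on_mul, exp_eq]
    simp only [Gate.old, P370Z.Gate.act]
    cases h : y q
    · simp [← h]
    · have : Function.update y q true = y := by rw [← h, Function.update_eq_self]
      simp [this]
  | CX c t h =>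
    simp only [Gate.mat, Gate.old, P370Z.Gate.act, Matrix.mulVec, dotProduct, Matrix.of_apply]
    rw [Finset.sum_eq_single (Function.update y t (xor (y t) (y c)))]
    · rw [if_pos, one_mul]
      simp [Function.update_of_ne h]
    · intro z _ hz
      rw [if_neg, zero_mul]
      rintro rfl
      exact hz (by simp [Function.update_of_ne h])
    · simp

theorem run_eq {n : ℕ} (l : List (Gate n)) (ψ : (Fin n → Bool) → ℂ) :
    (l.map Gate.mat).reverse.prod *ᵥ ψ = runGates (l.map Gate.old) ψ := by
  induction l generalizing ψ with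
  | nil => simp [runGates]
  | cons g l ih =>
    rw [List.map_cons, List.reverse_cons, List.prod_append, List.prod_singleton,
      ← Matrix.mulVec_mulVec, ih, Gate.mat_mul, List.map_cons, runGates]

/-- the verifier -/
def Circuit.old (C : Circuit) : Verifier := ⟨C.w, C.a, C.out, C.gates.map Gate.old⟩

theorem Circuit.code_eq (C : Circuit) : C.code = C.old.code := by
  simp only [Circuit.code, Circuit.old, Verifier.code, tup_eq, List.map_map, P370Z.unaryW]
  congr 7
  funext g
  cases g <;> simp [Gate.code, Gate.old, P370Z.Gate.data, tup_eq, show Nat.bits 2 = [false, true] by decide]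

theorem Circuit.accept_eq (C : Circuit) (ψ : (Fin C.w → Bool) → ℂ) :
    C.accept ψ = C.old.accept ψ := by
  rw [Circuit.accept, run_eq, Finset.sum_filter]
  rfl

theorem InQMA.old {Y X : Set (List Bool)} (h : InQMA Y X) : P370Z.InQMA Y X := by
  obtain ⟨C, h1, h2, h3⟩ := h
  refine ⟨fun x => (C x).old, ?_, fun x hx => ?_, fun x hx ψ hψ => ?_⟩
  · simp only [← Circuit.code_eq]
    exact h1
  · obtain ⟨ψ, a, b⟩ := h2 x hx
    exact ⟨ψ, a, b.trans_eq (Circuit.accept_eq _ _)⟩
  · exact (Circuit.accept_eq _ _).symm.trans_le (h3 x hx ψ hψ)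

/-- the nuclei -/
def nuc (l : List ((ℚ × ℚ × ℚ) × ℕ)) : Nuclei := l.map fun n => (![n.1.1, n.1.2.1, n.1.2.2], n.2)

theorem old_nuc (I : Instance) (N : ℕ) : old (nuc I.nuclei) N I.a I.b = { I with N := N } := by
  simp [old, nuc, List.map_map, Function.comp_def]

theorem E_nuc (I : Instance) (N : ℕ) :
    (E (nuc I.nuclei) N : EReal) = ({ I with N := N } : Instance).groundEnergy := by
  rw [E_eq _ _ I.a I.b, old_nuc]

/-- the instance -/
def new (I : Instance) : Inst := ⟨nuc I.nuclei, I.N, I.a, I.b⟩

theorem new_code (I : Instance) : (new I).code = I.code := by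
  simp only [Inst.code, new, nuc, Instance.code, tup_eq, ratW_eq, List.map_map, P370Z.unaryW]
  rfl

theorem new_ok {I : Instance} {c : ℕ} (h : I.Valid) (g : I.Gap c) : (new I).Ok c := by
  obtain ⟨h1, h2, h3, h4, h5⟩ := h
  refine ⟨by simpa [new, nuc] using h1, ?_, fun n hn => ?_, h4, h5, by rw [new_code]; exact g⟩
  · have := h2.map (f := fun p : ℚ × ℚ × ℚ => ![p.1, p.2.1, p.2.2]) fun p q h =>
      Prod.ext (congrFun h 0) (Prod.ext (congrFun h 1) (congrFun h 2))
    simpa [new, nuc, List.map_map, Function.comp_def] using this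
  · obtain ⟨m, hm, rfl⟩ := List.mem_map.1 hn
    exact h3 m hm

theorem hard_of {c : ℕ} {P : Nuclei → ℕ → Prop} {f : Nuclei → ℕ → ℝ}
    (h : P370Z.QMAHard {x | ∃ I : Instance, I.code = x ∧ I.Valid ∧ I.Gap c ∧
        P (nuc I.nuclei) I.N ∧ f (nuc I.nuclei) I.N ≤ I.a}
      {x | ∃ I : Instance, I.code = x ∧ I.Valid ∧ I.Gap c ∧ P (nuc I.nuclei) I.N ∧
        I.b ≤ f (nuc I.nuclei) I.N}) : Hard c P f := by
  intro Y X hq
  obtain ⟨r, h1, h2, h3⟩ := h Y X hq.old
  refine ⟨r, h1, fun x hx => ?_, fun x hx => ?_⟩
  · obtain ⟨I, a, b, g, e⟩ := h2 x hx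
    exact ⟨new I, by rw [new_code, a], new_ok b g, e⟩
  · obtain ⟨I, a, b, g, e⟩ := h3 x hx
    exact ⟨new I, by rw [new_code, a], new_ok b g, e⟩

theorem tup_inj {l l' : List (List Bool)} (h : tup l = tup l') : l = l' := by
  have hp : ∀ x x' y y' : List Bool, pairW x y = pairW x' y' → x = x' ∧ y = y' := by
    intro x
    induction x with
    | nil => intro x' y y' h; cases x' <;> simp_all [pairW]
    | cons b x ih =>
      intro x' y y' h
      cases x' with
      | nil => simp [pairW] at h
      | cons b' x' =>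
        simp only [pairW, List.cons.injEq, true_and] at h
        exact ⟨by rw [h.1, (ih _ _ _ h.2).1], (ih _ _ _ h.2).2⟩
  have hn : ∀ x y : List Bool, pairW x y ≠ [] := fun x y => by cases x <;> simp [pairW]
  rw [tup_eq, tup_eq] at h
  induction l generalizing l' with
  | nil =>
    cases l' with
    | nil => rfl
    | cons x l' => exact absurd h.symm (hn _ _)
  | cons x l ih =>
    cases l' with
    | nil => exact absurd h (hn _ _)
    | cons x' l' => rw [(hp _ _ _ _ h).1, ih (hp _ _ _ _ h).2]

theorem bits_inj {m n : ℕ} (h : m.bits = n.bits) : m = n := by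
  have e : ∀ k : ℕ, k.bits.foldr Nat.bit 0 = k := fun k => by
    induction k using Nat.binaryRec' with
    | zero => rfl
    | bit b k hk ih => rw [Nat.bits_append_bit _ _ hk, List.foldr_cons, ih]
  rw [← e m, h, e]

theorem ratW_inj {p q : ℚ} (h : ratW p = ratW q) : p = q := by
  have := tup_inj h
  simp only [List.cons.injEq, and_true, decide_eq_decide] at this
  have h1 := bits_inj this.2.1
  exact Rat.ext (by omega) (bits_inj this.2.2)

theorem code_inj : Function.Injective Inst.code := by
  rintro ⟨R, N, a, b⟩ ⟨R', N', a', b'⟩ h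
  have := tup_inj h
  simp only [List.cons.injEq, and_true] at this
  obtain ⟨h1, h2, h3, h4⟩ := this
  have hR : R = R' := by
    refine List.map_injective_iff.2 (fun n n' e => ?_) (tup_inj h1)
    have := tup_inj e
    simp only [List.cons.injEq, and_true] at this
    refine Prod.ext (funext fun k => ?_) (bits_inj this.2.2.2)
    fin_cases k
    exacts [ratW_inj this.1, ratW_inj this.2.1, ratW_inj this.2.2.1]
  rw [hR, ratW_inj h3, ratW_inj h4, show N = N' by simpa using congrArg List.length h2]

end

end Vale.Agent.N370X
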